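import Vale.Agent.P141.H336.TVst

/-!
# P141, line (A): the plane energy of a capped stack family, energy at the finest scale only

`Stk0` : the structure `H336.Stk` with the energy bound `H` only at the middle scale `k₀`.
`Stk0.TV_stack : TV (phs s W) ≤ 1600 s ((J + 1) H + Qo + Qm)`.
-/

namespace Vale.Agent.P141.H125.S0

open Finset Matrix Vale.Agent.P075 Vale.Agent.P141.PL Vale.Agent.P141.H103 Vale.Agent.P141.H389
  Vale.Agent.P141.H505 Vale.Agent.P141.H585.PairCh Vale.Agent.P141.H336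

noncomputable section

section mat

variable {n : Type*} [Fintype n] [DecidableEq n] {X : Matrix n n ℝ}

/-- one level of the energy -/
theorem le_SG (hX : X.PosSemidef) {μ : ℝ} (hμ : 0 < μ) {J j : ℕ} (hj : j ≤ J) :
    (μ / 4 ^ j)⁻¹ * GX ((μ / 4 ^ j) • X) ≤ SG μ J X := by
  unfold SG
  refine single_le_sum (f := fun j => (μ / 4 ^ j)⁻¹ * GX ((μ / 4 ^ j) • X)) (fun i _ => ?_)
    (mem_range.2 (by omega))
  exact mul_nonneg (by positivity) (GX_nonneg (hX.smul (by positivity : (0 : ℝ) ≤ μ / 4 ^ i)))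

/-- the square of the cap is at most four times the energy -/
theorem sq_phs_le_SG (hX : X.PosSemidef) {μ : ℝ} (hμ : 0 < μ) {J j : ℕ} (hj : j ≤ J) :
    H389.sq (phs ((μ / 4 ^ j)⁻¹) X) ≤ 4 * (μ / 4 ^ j)⁻¹ * SG μ J X := by
  have hμj : 0 < μ / 4 ^ j := by positivity
  have h1 := H588.phi_sq_le_GX (hX.smul hμj.le)
  have h2 := le_SG hX hμ hj
  have h3 : H389.sq (phs ((μ / 4 ^ j)⁻¹) X)
      = ((μ / 4 ^ j)⁻¹) ^ 2 * (phi ((μ / 4 ^ j) • X) * phi ((μ / 4 ^ j) • X)).trace := by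
    unfold phs
    rw [sq_smul, inv_inv]
    rfl
  rw [h3]
  have h4 : (0 : ℝ) < (μ / 4 ^ j)⁻¹ := inv_pos.2 hμj
  have h5 := mul_le_mul_of_nonneg_left h1 (sq_nonneg ((μ / 4 ^ j)⁻¹))
  have h6 := mul_le_mul_of_nonneg_left h2 (by positivity : (0 : ℝ) ≤ 4 * (μ / 4 ^ j)⁻¹)
  refine h5.trans (le_trans (le_of_eq ?_) h6)
  ring

/-- the energy is monotone -/
theorem GX_mono {X Y : Matrix n n ℝ} (hX : X.PosSemidef) (hXY : (Y - X).PosSemidef) :
    GX X ≤ GX Y := by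
  have hY : Y.PosSemidef := by
    have := hX.add hXY
    rwa [add_sub_cancel] at this
  have h1 := GX_tangent hX hY
  have h2 := trace_mul_nonneg (phi_psd hX) hXY
  linarith

theorem SG_mono {X Y : Matrix n n ℝ} (hX : X.PosSemidef) (hXY : (Y - X).PosSemidef) {μ : ℝ}
    (hμ : 0 < μ) (J : ℕ) : SG μ J X ≤ SG μ J Y := by
  unfold SG
  refine sum_le_sum fun j _ => mul_le_mul_of_nonneg_left ?_ (by positivity)
  have hj : (0 : ℝ) ≤ μ / 4 ^ j := by positivity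
  refine GX_mono (hX.smul hj) ?_
  rw [← smul_sub]
  exact hXY.smul hj

end mat

/-- `H336.Stk` with the energy bound only at the finest middle scale `k₀`. -/
structure Stk0 (k₀ N : ℕ) (R S : ℤ) {ι : ℕ → Type*} [∀ k, Fintype (ι k)]
    [∀ k, DecidableEq (ι k)] (μ : ℝ) (J : ℕ)
    (W X₀ X₁ M₀ M₁ : ∀ k, ℕ → ℤ → ℤ → Matrix (ι k) (ι k) ℝ)
    (q p γ : ℕ → ℕ → ℤ → ℤ → ℝ) (H Qo Qm : ℝ) : Prop where
  hkN : k₀ ≤ N
  hμ : 0 < μ
  psd : ∀ k a n m, (W k a n m).PosSemidef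
  psd0 : ∀ k a n m, (X₀ k a n m).PosSemidef
  psd1 : ∀ k a n m, (X₁ k a n m).PosSemidef
  nγ : ∀ k a n m, 0 ≤ γ k a n m
  np : ∀ k a n m, 0 ≤ p k a n m
  par : ∀ k a n m, k₀ ≤ k → k ≤ a → a < N →
    W k (a + 1) n m = (1 / 2 : ℝ) • (X₀ k a n m + X₁ k a n m)
  ch0 : ∀ k a n m, k₀ ≤ k → k ≤ a → a < N → W k a (2 * n) m = mv (M₀ k a n m) (X₀ k a n m)
  ch1 : ∀ k a n m, k₀ ≤ k → k ≤ a → a < N → W k a (2 * n + 1) m = mv (M₁ k a n m) (X₁ k a n m)
  out : ∀ k a n m, k₀ ≤ k → k ≤ a → a < N →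
    SG μ J (W k (a + 1) n m) + (1 / 4) * SD μ J (X₀ k a n m) (X₁ k a n m)
      ≤ (1 / 2) * (SG μ J (W k a (2 * n) m) + SG μ J (W k a (2 * n + 1) m)) + q k a n m
  lip : ∀ k a n m, k₀ ≤ k → k ≤ a → a < N →
    (M₀ k a n m * X₀ k a n m * (M₀ k a n m)ᵀ).trace
      + (M₁ k a n m * X₁ k a n m * (M₁ k a n m)ᵀ).trace ≤ q k a n m
  mid : ∀ k a n m, k₀ ≤ k → k + 1 ≤ a → a ≤ N →
    SG μ J (W (k + 1) a n m) + γ k a n m
      ≤ (1 / 2) * (SG μ J (W k a n (2 * m)) + SG μ J (W k a n (2 * m + 1))) + p k a n m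
  hH : ∀ a, k₀ ≤ a → a ≤ N →
    (2 : ℝ) ^ a * 2 ^ k₀ * ∑ m ∈ iv (N - k₀) S, ∑ n ∈ iv (N - a) R, (W k₀ a n m).trace ≤ H
  hQo : ∀ r, ∑ k ∈ Ico k₀ (N - r), (2 : ℝ) ^ (k + r + 1) * 2 ^ k * ∑ m ∈ iv (N - k) S,
    ∑ n ∈ iv (N - (k + r + 1)) R, q k (k + r) n m ≤ Qo
  hQm : ∀ r, ∑ k ∈ Ico k₀ (N - r), (2 : ℝ) ^ (k + 1 + r) * 2 ^ (k + 1)
    * ∑ m ∈ iv (N - (k + 1)) S, ∑ n ∈ iv (N - (k + 1 + r)) R, p k (k + 1 + r) n m ≤ Qm

variable {k₀ N : ℕ} {R S : ℤ} {ι : ℕ → Type*} [∀ k, Fintype (ι k)] [∀ k, DecidableEq (ι k)]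
  {μ : ℝ} {J : ℕ} {W X₀ X₁ M₀ M₁ : ∀ k, ℕ → ℤ → ℤ → Matrix (ι k) (ι k) ℝ}
  {q p γ : ℕ → ℕ → ℤ → ℤ → ℝ} {H Qo Qm : ℝ}

theorem Stk0.H_nonneg (h : Stk0 k₀ N R S μ J W X₀ X₁ M₀ M₁ q p γ H Qo Qm) : 0 ≤ H :=
  (bsum_nonneg (R := R) (S := S) (k := k₀) (a := k₀) (N := N)
    (f := fun n m => (W k₀ k₀ n m).trace) fun _ _ => (h.psd _ _ _ _).trace_nonneg).trans
    (h.hH k₀ le_rfl h.hkN)

theorem Stk0.Qo_nonneg (h : Stk0 k₀ N R S μ J W X₀ X₁ M₀ M₁ q p γ H Qo Qm) : 0 ≤ Qo := by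
  have := h.hQo N
  rwa [Nat.sub_self, Ico_eq_empty (by omega), sum_empty] at this

theorem Stk0.Qm_nonneg (h : Stk0 k₀ N R S μ J W X₀ X₁ M₀ M₁ q p γ H Qo Qm) : 0 ≤ Qm := by
  have := h.hQm N
  rwa [Nat.sub_self, Ico_eq_empty (by omega), sum_empty] at this

/-- the error `q` is nonnegative where it is used -/
theorem Stk0.nq (h : Stk0 k₀ N R S μ J W X₀ X₁ M₀ M₁ q p γ H Qo Qm) {k a : ℕ} (h1 : k₀ ≤ k)
    (h2 : k ≤ a) (h3 : a < N) (n m : ℤ) : 0 ≤ q k a n m := by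
  have f : ∀ X M : Matrix (ι k) (ι k) ℝ, X.PosSemidef → 0 ≤ (M * X * Mᵀ).trace := by
    intro X M hX
    exact (psd_conj hX M).trace_nonneg
  exact (add_nonneg (f _ _ (h.psd0 k a n m)) (f _ _ (h.psd1 k a n m))).trans
    (h.lip k a n m h1 h2 h3)

/-- **The diagonals**: defects, middle gains and the energy at any scale. -/
theorem Stk0.key (h : Stk0 k₀ N R S μ J W X₀ X₁ M₀ M₁ q p γ H Qo Qm) (r : ℕ) {K : ℕ}
    (hK : k₀ ≤ K) (hKr : K + r ≤ N) :
    ∑ k ∈ Ico k₀ K, (1 / 4) * ((2 : ℝ) ^ (k + r + 1) * 2 ^ k * ∑ m ∈ iv (N - k) S,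
        ∑ n ∈ iv (N - (k + r + 1)) R, SD μ J (X₀ k (k + r) n m) (X₁ k (k + r) n m))
      + ∑ k ∈ Ico k₀ K, (2 : ℝ) ^ (k + 1 + r) * 2 ^ (k + 1)
        * ∑ m ∈ iv (N - (k + 1)) S, ∑ n ∈ iv (N - (k + 1 + r)) R, γ k (k + 1 + r) n m
      + bsum N R S K (K + r) (fun n m => SG μ J (W K (K + r) n m))
      ≤ ((J : ℝ) + 1) * H + Qo + Qm := by
  have hμ := h.hμ
  have key := diag (k₀ := k₀) (N := N)
      (E := fun k a => bsum N R S k a fun n m => SG μ J (W k a n m))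
      (G := fun k a => (1 / 4) * bsum N R S k (a + 1) fun n m =>
        SD μ J (X₀ k a n m) (X₁ k a n m))
      (G' := fun k a => bsum N R S (k + 1) a fun n m => γ k a n m)
      (q := fun k a => bsum N R S k (a + 1) fun n m => q k a n m)
      (p := fun k a => bsum N R S (k + 1) a fun n m => p k a n m)
      (fun k a h1 h2 h3 => by
        rw [← bsum_outer h3 R S (fun n m => SG μ J (W k a n m)), ← bsum_smul, ← bsum_add,
          ← bsum_add]
        exact bsum_mono fun n m => h.out k a n m h1 h2 h3)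
      (fun k a h1 h2 h3 => by
        rw [← bsum_mid (by omega : k < N) R S (fun n m => SG μ J (W k a n m)), ← bsum_add,
          ← bsum_add]
        exact bsum_mono fun n m => h.mid k a n m h1 h2 h3)
      r K hK hKr
  have e2 : (bsum N R S k₀ (k₀ + r) fun n m => SG μ J (W k₀ (k₀ + r) n m))
      ≤ ((J : ℝ) + 1) * H := by
    have h1 := h.hH (k₀ + r) (by omega) (by omega)
    have h2 : (bsum N R S k₀ (k₀ + r) fun n m => SG μ J (W k₀ (k₀ + r) n m))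
        ≤ bsum N R S k₀ (k₀ + r) fun n m => ((J : ℝ) + 1) * (W k₀ (k₀ + r) n m).trace :=
      bsum_mono fun n m => SG_le (h.psd _ _ _ _) hμ J
    rw [bsum_smul] at h2
    exact h2.trans (mul_le_mul_of_nonneg_left h1 (by positivity))
  have hsub : Ico k₀ K ⊆ Ico k₀ (N - r) := by
    intro k hk
    rw [mem_Ico] at hk ⊢
    omega
  have e3 : ∑ k ∈ Ico k₀ K, (bsum N R S k (k + r + 1) fun n m => q k (k + r) n m) ≤ Qo := by
    refine le_trans ?_ (h.hQo r)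
    refine sum_le_sum_of_subset_of_nonneg hsub fun k hk _ => ?_
    rw [mem_Ico] at hk
    exact mul_nonneg (by positivity) (sum_nonneg fun m _ => sum_nonneg fun n _ =>
      h.nq hk.1 (by omega) (by omega) n m)
  have e4 : ∑ k ∈ Ico k₀ K, (bsum N R S (k + 1) (k + 1 + r) fun n m => p k (k + 1 + r) n m)
      ≤ Qm := by
    refine le_trans ?_ (h.hQm r)
    refine sum_le_sum_of_subset_of_nonneg hsub fun k hk _ => ?_
    exact mul_nonneg (by positivity) (sum_nonneg fun m _ => sum_nonneg fun n _ =>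
      h.np _ _ _ _)
  simp only [bsum] at key e2 e3 e4 ⊢
  linarith

/-- **Own energy on the diagonals**: the defects of the outer steps and the middle gains. -/
theorem Stk0.own_diag (h : Stk0 k₀ N R S μ J W X₀ X₁ M₀ M₁ q p γ H Qo Qm) (r : ℕ) :
    ∑ k ∈ Ico k₀ (N - r), (1 / 4) * ((2 : ℝ) ^ (k + r + 1) * 2 ^ k * ∑ m ∈ iv (N - k) S,
        ∑ n ∈ iv (N - (k + r + 1)) R, SD μ J (X₀ k (k + r) n m) (X₁ k (k + r) n m))
      + ∑ k ∈ Ico k₀ (N - r), (2 : ℝ) ^ (k + 1 + r) * 2 ^ (k + 1)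
        * ∑ m ∈ iv (N - (k + 1)) S, ∑ n ∈ iv (N - (k + 1 + r)) R, γ k (k + 1 + r) n m
      ≤ ((J : ℝ) + 1) * H + Qo + Qm := by
  have hH0 := h.H_nonneg
  have hO0 := h.Qo_nonneg
  have hM0 := h.Qm_nonneg
  by_cases hr : k₀ + r ≤ N
  · have k1 := h.key r (K := N - r) (by omega) (by omega)
    have e1 : 0 ≤ bsum N R S (N - r) (N - r + r) fun n m => SG μ J (W (N - r) (N - r + r) n m) :=
      bsum_nonneg fun n m => SG_nonneg (h.psd _ _ _ _) h.hμ J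
    linarith
  · rw [Ico_eq_empty (by omega), sum_empty, sum_empty]
    have : 0 ≤ ((J : ℝ) + 1) * H := by positivity
    linarith

/-- **The energy at every scale**: no hypothesis at the scales above `k₀`. -/
theorem Stk0.en (h : Stk0 k₀ N R S μ J W X₀ X₁ M₀ M₁ q p γ H Qo Qm) {k a : ℕ} (h1 : k₀ ≤ k)
    (h2 : k ≤ a) (h3 : a ≤ N) :
    (2 : ℝ) ^ a * 2 ^ k * ∑ m ∈ iv (N - k) S, ∑ n ∈ iv (N - a) R, SG μ J (W k a n m)
      ≤ ((J : ℝ) + 1) * H + Qo + Qm := by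
  obtain ⟨r, rfl⟩ := Nat.exists_eq_add_of_le h2
  have k1 := h.key r (K := k) h1 h3
  have e1 : 0 ≤ ∑ j ∈ Ico k₀ k, (1 / 4) * ((2 : ℝ) ^ (j + r + 1) * 2 ^ j * ∑ m ∈ iv (N - j) S,
      ∑ n ∈ iv (N - (j + r + 1)) R, SD μ J (X₀ j (j + r) n m) (X₁ j (j + r) n m)) :=
    sum_nonneg fun k _ => mul_nonneg (by norm_num) (mul_nonneg (by positivity)
      (sum_nonneg fun m _ => sum_nonneg fun n _ => SD_nonneg (h.psd0 _ _ _ _) (h.psd1 _ _ _ _)
        h.hμ J))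
  have e2 : 0 ≤ ∑ k ∈ Ico k₀ k, (2 : ℝ) ^ (k + 1 + r) * 2 ^ (k + 1)
        * ∑ m ∈ iv (N - (k + 1)) S, ∑ n ∈ iv (N - (k + 1 + r)) R, γ k (k + 1 + r) n m :=
    sum_nonneg fun k _ => mul_nonneg (by positivity)
      (sum_nonneg fun m _ => sum_nonneg fun n _ => h.nγ _ _ _ _)
  unfold bsum at k1
  linarith

theorem Stk0.outer_diag (h : Stk0 k₀ N R S μ J W X₀ X₁ M₀ M₁ q p γ H Qo Qm) (r : ℕ) :
    ∑ k ∈ Ico k₀ (N - r), (2 : ℝ) ^ (k + r + 1) * 2 ^ k * ∑ m ∈ iv (N - k) S,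
        ∑ n ∈ iv (N - (k + r + 1)) R, SD μ J (X₀ k (k + r) n m) (X₁ k (k + r) n m)
      ≤ 4 * (((J : ℝ) + 1) * H + Qo + Qm) := by
  have h1 := h.own_diag r
  have h2 : 0 ≤ ∑ k ∈ Ico k₀ (N - r), (2 : ℝ) ^ (k + 1 + r) * 2 ^ (k + 1)
        * ∑ m ∈ iv (N - (k + 1)) S, ∑ n ∈ iv (N - (k + 1 + r)) R, γ k (k + 1 + r) n m :=
    sum_nonneg fun k _ => mul_nonneg (by positivity)
      (sum_nonneg fun m _ => sum_nonneg fun n _ => h.nγ _ _ _ _)
  rw [← mul_sum] at h1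
  linarith

theorem Stk0.mid_diag (h : Stk0 k₀ N R S μ J W X₀ X₁ M₀ M₁ q p γ H Qo Qm) (r : ℕ) :
    ∑ k ∈ Ico k₀ (N - r), (2 : ℝ) ^ (k + 1 + r) * 2 ^ (k + 1)
        * ∑ m ∈ iv (N - (k + 1)) S, ∑ n ∈ iv (N - (k + 1 + r)) R, γ k (k + 1 + r) n m
      ≤ ((J : ℝ) + 1) * H + Qo + Qm := by
  have h1 := h.own_diag r
  have h2 : 0 ≤ ∑ k ∈ Ico k₀ (N - r), (1 / 4) * ((2 : ℝ) ^ (k + r + 1) * 2 ^ k
      * ∑ m ∈ iv (N - k) S, ∑ n ∈ iv (N - (k + r + 1)) R,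
        SD μ J (X₀ k (k + r) n m) (X₁ k (k + r) n m)) :=
    sum_nonneg fun k _ => mul_nonneg (by norm_num) (mul_nonneg (by positivity)
      (sum_nonneg fun m _ => sum_nonneg fun n _ => SD_nonneg (h.psd0 _ _ _ _) (h.psd1 _ _ _ _)
        h.hμ J))
  linarith

/-- **The plane energy of the capped stack family**, energy at the finest scale only. -/
theorem Stk0.TV_stack (h : Stk0 k₀ N R S μ J W X₀ X₁ M₀ M₁ q p γ H Qo Qm) {j : ℕ} (hj : j ≤ J) :
    TV k₀ N R S (fun k a n m => phs ((μ / 4 ^ j)⁻¹) (W k a n m))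
      ≤ 1600 * (μ / 4 ^ j)⁻¹ * (((J : ℝ) + 1) * H + Qo + Qm) := by
  have hμ := h.hμ
  have hH0 := h.H_nonneg
  have hO0 := h.Qo_nonneg
  have hM0 := h.Qm_nonneg
  have hμj : 0 < μ / 4 ^ j := by positivity
  set s : ℝ := (μ / 4 ^ j)⁻¹ with hs
  have s0 : 0 < s := inv_pos.2 hμj
  have hsi : s⁻¹ = μ / 4 ^ j := by rw [hs, inv_inv]
  set X : ℝ := ((J : ℝ) + 1) * H + Qo + Qm with hX
  have hJ : (0 : ℝ) ≤ J := Nat.cast_nonneg J
  have hX0 : 0 ≤ X := by rw [hX]; positivity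
  -- own energies
  have hEW : ∀ k a, k₀ ≤ k → k ≤ a → a ≤ N →
      EW N R S k (fun a n m => phs s (W k a n m)) a ≤ 4 * (s * X) := by
    intro k a h1 h2 h3
    have e1 : EW N R S k (fun a n m => phs s (W k a n m)) a
        = bsum N R S k a fun n m => H389.sq (phs s (W k a n m)) := rfl
    have e2 : (bsum N R S k a fun n m => H389.sq (phs s (W k a n m)))
        ≤ bsum N R S k a fun n m => 4 * s * SG μ J (W k a n m) :=
      bsum_mono fun n m => sq_phs_le_SG (h.psd _ _ _ _) hμ hj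
    rw [bsum_smul] at e2
    have e3 := h.en h1 h2 h3
    have e4 : 4 * s * (bsum N R S k a fun n m => SG μ J (W k a n m)) ≤ 4 * s * X :=
      mul_le_mul_of_nonneg_left e3 (by positivity)
    linarith
  -- level energies
  have hlev : ∀ k r, k₀ ≤ k → k + r < N →
      (2 : ℝ) ^ k * ∑ m ∈ iv (N - k) S, lvV N R (fun a n => phs s (W k a n m)) (k + r)
      ≤ 4 * s * ((2 : ℝ) ^ (k + r + 1) * 2 ^ k * ∑ m ∈ iv (N - k) S,
          ∑ n ∈ iv (N - (k + r + 1)) R, SD μ J (X₀ k (k + r) n m) (X₁ k (k + r) n m))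
        + s * ((2 : ℝ) ^ (k + r + 1) * 2 ^ k * ∑ m ∈ iv (N - k) S,
          ∑ n ∈ iv (N - (k + r + 1)) R, q k (k + r) n m) := by
    intro k r h1 h2
    have e1 : (2 : ℝ) ^ k * ∑ m ∈ iv (N - k) S, lvV N R (fun a n => phs s (W k a n m)) (k + r)
        = (1 / 2) * bsum N R S k (k + r + 1) fun n m =>
          (H389.sq (phs s (W k (k + r) (2 * n) m) - phs s (W k (k + r + 1) n m))
            + H389.sq (phs s (W k (k + r) (2 * n + 1) m) - phs s (W k (k + r + 1) n m))) := by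
      unfold lvV bsum
      rw [← mul_sum, pow_succ]
      ring
    have e2 : (bsum N R S k (k + r + 1) fun n m =>
          (H389.sq (phs s (W k (k + r) (2 * n) m) - phs s (W k (k + r + 1) n m))
            + H389.sq (phs s (W k (k + r) (2 * n + 1) m) - phs s (W k (k + r + 1) n m))))
        ≤ bsum N R S k (k + r + 1) fun n m =>
          8 * s * SD μ J (X₀ k (k + r) n m) (X₁ k (k + r) n m) + 2 * s * q k (k + r) n m := by
      refine bsum_mono fun n m => ?_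
      rw [h.par k (k + r) n m h1 (by omega) h2, h.ch0 k (k + r) n m h1 (by omega) h2,
        h.ch1 k (k + r) n m h1 (by omega) h2]
      have f1 := phs_step (h.psd0 k (k + r) n m) (h.psd1 k (k + r) n m) s0
        (M₀ k (k + r) n m) (M₁ k (k + r) n m)
      have f2 := h.lip k (k + r) n m h1 (by omega) h2
      have f3 := le_SD (h.psd0 k (k + r) n m) (h.psd1 k (k + r) n m) hμ hj
      rw [← hs] at f3
      rw [hsi] at f1
      have f4 := mul_le_mul_of_nonneg_left f2 (by positivity : (0 : ℝ) ≤ 2 * s)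
      have f5 := mul_le_mul_of_nonneg_left f3 (by positivity : (0 : ℝ) ≤ 8 * s)
      nlinarith
    have e3 : (bsum N R S k (k + r + 1) fun n m =>
          8 * s * SD μ J (X₀ k (k + r) n m) (X₁ k (k + r) n m) + 2 * s * q k (k + r) n m)
        = 8 * s * (bsum N R S k (k + r + 1) fun n m => SD μ J (X₀ k (k + r) n m)
            (X₁ k (k + r) n m))
          + 2 * s * bsum N R S k (k + r + 1) fun n m => q k (k + r) n m := by
      rw [← bsum_smul, ← bsum_smul, ← bsum_add]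
    rw [e3] at e2
    rw [e1]
    unfold bsum at e2 ⊢
    linarith
  -- the sum over all diagonals
  have hsX : 0 ≤ s * X := mul_nonneg s0.le hX0
  have hdiag : ∀ r, ∑ k ∈ Ico k₀ (N - r),
      ((2 : ℝ) ^ k * ∑ m ∈ iv (N - k) S, lvV N R (fun a n => phs s (W k a n m)) (k + r))
      ≤ 17 * (s * X) := by
    intro r
    have e1 := h.outer_diag r
    have e2 := h.hQo r
    calc ∑ k ∈ Ico k₀ (N - r), ((2 : ℝ) ^ k * ∑ m ∈ iv (N - k) S,
          lvV N R (fun a n => phs s (W k a n m)) (k + r))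
        ≤ ∑ k ∈ Ico k₀ (N - r), (4 * s * ((2 : ℝ) ^ (k + r + 1) * 2 ^ k * ∑ m ∈ iv (N - k) S,
          ∑ n ∈ iv (N - (k + r + 1)) R, SD μ J (X₀ k (k + r) n m) (X₁ k (k + r) n m))
        + s * ((2 : ℝ) ^ (k + r + 1) * 2 ^ k * ∑ m ∈ iv (N - k) S,
          ∑ n ∈ iv (N - (k + r + 1)) R, q k (k + r) n m)) :=
          sum_le_sum fun k hk => by
            have := mem_Ico.1 hk
            exact hlev k r this.1 (by omega)
      _ ≤ 4 * s * (4 * X) + s * Qo := by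
          rw [sum_add_distrib, ← mul_sum, ← mul_sum]
          exact add_le_add (mul_le_mul_of_nonneg_left e1 (by positivity))
            (mul_le_mul_of_nonneg_left e2 s0.le)
      _ ≤ 17 * (s * X) := by
          have : s * Qo ≤ s * X := mul_le_mul_of_nonneg_left (by
            have : 0 ≤ ((J : ℝ) + 1) * H := by positivity
            linarith) s0.le
          linarith
  have hall := diag_sum (k₀ := k₀) (N := N)
    (f := fun k r => (2 : ℝ) ^ k * ∑ m ∈ iv (N - k) S,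
      lvV N R (fun a n => phs s (W k a n m)) (k + r)) hdiag (by positivity)
  have htop : ∑ k ∈ Ico k₀ N, (3 / 4 : ℝ) ^ (N - k)
      * EW N R S k (fun a n m => phs s (W k a n m)) N ≤ 4 * (4 * (s * X)) := by
    calc _ ≤ ∑ k ∈ Ico k₀ N, (3 / 4 : ℝ) ^ (N - k) * (4 * (s * X)) :=
          sum_le_sum fun k hk => by
            have := mem_Ico.1 hk
            exact mul_le_mul_of_nonneg_left (hEW k N this.1 (by omega) le_rfl) (by positivity)
      _ = (∑ k ∈ Ico k₀ N, (3 / 4 : ℝ) ^ (N - k)) * (4 * (s * X)) := (sum_mul ..).symm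
      _ ≤ 4 * (4 * (s * X)) := mul_le_mul_of_nonneg_right (geo' h.hkN) (by positivity)
  have hSVM : ∀ k, SVM N k R S (fun a n m => phs s (W k a n m))
      = ∑ r ∈ range (N - k), (3 / 4 : ℝ) ^ r * ((2 : ℝ) ^ k * ∑ m ∈ iv (N - k) S,
          lvV N R (fun a n => phs s (W k a n m)) (k + r))
        + (3 / 4 : ℝ) ^ (N - k) * EW N R S k (fun a n m => phs s (W k a n m)) N := by
    intro k
    unfold SVM SV
    rw [EW_eq, sum_add_distrib, mul_add, sum_comm]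
    congr 1
    · rw [mul_sum]
      refine sum_congr rfl fun r _ => ?_
      rw [← mul_sum]
      ring
    · rw [← mul_sum]
      ring
  have hsum : ∑ k ∈ Ico k₀ N, SVM N k R S (fun a n m => phs s (W k a n m))
      ≤ 84 * (s * X) := by
    simp only [hSVM, sum_add_distrib]
    linarith
  unfold TV
  have h1 := hEW k₀ k₀ le_rfl le_rfl h.hkN
  have h2 := hEW N N h.hkN le_rfl le_rfl
  linarith

end

end Vale.Agent.P141.H125.S0
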