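import Vale.Agent.P141.H125.Phi
import Vale.Agent.P141.PL.Defs

/-!
# P141, line (S): births at one fibre, in letters

`h : ℤ → ι → ℝ` a vector valued function of one variable (the other variable of the edge is
fixed), `iv k m` the dyadic cells, `kap` a stopping function: constant on its own cell.

* `Gc h k m` Gram matrix on a cell, `ph h w k m = tr (Gc - w)₊`, `dph` its increment;
* `pas + act + fut = h` on the window `iv K m`, orthogonal projections of `h y`;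
* `pas_le`: `w (ξ . E ξ) ≤` mean of `(h y . ξ) ^ 2`;
* `fut_pot`: potentials of `fut` on the cells of `kap` are at most `2 w`;
* `act_mass`: the mass of `act` is at most twice the sum of the increments of `ph` above `kap`;
* `dph_total`: all the increments below a root are at most the mass of `h`.
-/

namespace Vale.Agent.P141.H125

open Finset Matrix
open Vale.Agent.P141.PL (iv ix mem_iv card_iv ix_ix ix_zero self_mem_iv)

noncomputable section

/-! ### Cells -/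

theorem ix_of_le {k l : ℕ} (hkl : k ≤ l) {x y : ℤ} (h : ix k x = ix k y) : ix l x = ix l y := by
  obtain ⟨j, rfl⟩ := Nat.exists_eq_add_of_le hkl
  rw [← ix_ix, ← ix_ix, h]

theorem ix_half (k : ℕ) (x : ℤ) : ix (k + 1) x = ix k x / 2 := by
  rw [← ix_ix]
  unfold ix
  norm_num

theorem sum_iv_two {M : Type*} [AddCommMonoid M] (k : ℕ) (m : ℤ) (f : ℤ → M) :
    ∑ x ∈ iv (k + 1) m, f x = ∑ x ∈ iv k (2 * m), f x + ∑ x ∈ iv k (2 * m + 1), f x := by
  have e : iv (k + 1) m = iv k (2 * m) ∪ iv k (2 * m + 1) := by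
    ext x
    rw [mem_union, mem_iv, mem_iv, mem_iv, ix_half]
    omega
  have d : Disjoint (iv k (2 * m)) (iv k (2 * m + 1)) := by
    rw [disjoint_left]
    intro x h1 h2
    rw [mem_iv] at h1 h2
    omega
  rw [e, sum_union d]

/-- a stopping function on a cell -/
structure Stp (K : ℕ) (m : ℤ) (kap : ℤ → ℕ) : Prop where
  le : ∀ y ∈ iv K m, kap y ≤ K
  const : ∀ y ∈ iv K m, ∀ y', ix (kap y) y' = ix (kap y) y → kap y' = kap y

variable {K : ℕ} {m : ℤ} {kap : ℤ → ℕ}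

theorem stp_const {e : ℕ} (he : e ≤ K) : Stp K m fun _ => e := ⟨fun _ _ => he, fun _ _ _ _ => rfl⟩

theorem Stp.mem (hs : Stp K m kap) {y y' : ℤ} (hy : y ∈ iv K m) (h : ix (kap y) y' = ix (kap y) y) :
    y' ∈ iv K m := by
  rw [mem_iv] at hy ⊢
  rw [← hy]
  exact ix_of_le (hs.le y (mem_iv.2 hy)) h

/-- the indicator of `kap ≤ j` is constant on the cells of scale `j + 1` -/
theorem Stp.ind (hs : Stp K m kap) {j : ℕ} {y y' : ℤ} (hy : y ∈ iv K m) (hy' : y' ∈ iv K m)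
    (h : ix (j + 1) y' = ix (j + 1) y) : kap y' ≤ j ↔ kap y ≤ j := by
  constructor
  · intro h1
    by_contra h2
    rw [not_le] at h2
    have h3 := hs.const y hy y' (ix_of_le h2 h)
    omega
  · intro h1
    by_contra h2
    rw [not_le] at h2
    have h3 := hs.const y' hy' y (ix_of_le h2 h.symm)
    omega

section cell

variable {M : Type*} [AddCommGroup M] [Module ℝ M]

/-- averaging on the cells of a stopping function -/
theorem Stp.sum_cell (hs : Stp K m kap) (f : ℤ → M) :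
    ∑ y ∈ iv K m, ((2 : ℝ) ^ kap y)⁻¹ • ∑ y' ∈ iv (kap y) (ix (kap y) y), f y' =
      ∑ y ∈ iv K m, f y := by
  simp only [smul_sum]
  rw [sum_comm' (t' := iv K m) (s' := fun y' => iv (kap y') (ix (kap y') y'))]
  · refine sum_congr rfl fun y' hy' => ?_
    have h1 : ∀ y ∈ iv (kap y') (ix (kap y') y'), ((2 : ℝ) ^ kap y)⁻¹ • f y' =
        ((2 : ℝ) ^ kap y')⁻¹ • f y' := fun y hy => by
      rw [hs.const y' hy' y (mem_iv.1 hy)]
    rw [sum_congr rfl h1, sum_const, card_iv, ← Nat.cast_smul_eq_nsmul ℝ, smul_smul]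
    push_cast
    rw [mul_inv_cancel₀ (by positivity), one_smul]
  · intro y y'
    constructor
    · rintro ⟨h1, h2⟩
      rw [mem_iv] at h2
      have h3 := hs.const y h1 y' h2
      refine ⟨?_, hs.mem h1 h2⟩
      rw [h3, mem_iv, h2]
    · rintro ⟨h1, h2⟩
      rw [mem_iv] at h1
      have h3 := hs.const y' h2 y h1
      refine ⟨hs.mem h2 h1, ?_⟩
      rw [h3, mem_iv, h1]

end cell

/-- mean over the two children minus the value -/
def dav (φ : ℕ → ℤ → ℝ) (j : ℕ) (n : ℤ) : ℝ := (φ j (2 * n) + φ j (2 * n + 1)) / 2 - φ (j + 1) n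

theorem tele_pt (φ : ℕ → ℤ → ℝ) (y : ℤ) (l K : ℕ) (h : l ≤ K) :
    ∑ j ∈ range K, (if l ≤ j then φ j (ix j y) - φ (j + 1) (ix (j + 1) y) else 0) =
      φ l (ix l y) - φ K (ix K y) := by
  induction K, h using Nat.le_induction with
  | base =>
    rw [sub_self]
    refine sum_eq_zero fun j hj => ?_
    rw [if_neg (by have := mem_range.1 hj; omega)]
  | succ K hK ih =>
    rw [sum_range_succ, ih, if_pos hK]
    ring

/-- **Telescoping above a stopping function.** -/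
theorem Stp.tele (hs : Stp K m kap) (φ : ℕ → ℤ → ℝ) :
    ∑ y ∈ iv K m, φ (kap y) (ix (kap y) y) = 2 ^ K * φ K m +
      ∑ j ∈ range K, ∑ y ∈ iv K m, (if kap y ≤ j then dav φ j (ix (j + 1) y) else 0) := by
  have h1 : ∀ y ∈ iv K m, φ (kap y) (ix (kap y) y) = φ K m +
      ∑ j ∈ range K, (if kap y ≤ j then φ j (ix j y) - φ (j + 1) (ix (j + 1) y) else 0) := by
    intro y hy
    rw [tele_pt φ y (kap y) K (hs.le y hy), mem_iv.1 hy]
    ring
  rw [sum_congr rfl h1, sum_add_distrib, sum_const, card_iv, nsmul_eq_mul, sum_comm]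
  push_cast
  congr 1
  refine sum_congr rfl fun j hj => ?_
  have hj' : j + 1 ≤ K := mem_range.1 hj
  have h2 := (stp_const (K := K) (m := m) hj').sum_cell (M := ℝ)
    fun y => if kap y ≤ j then φ j (ix j y) - φ (j + 1) (ix (j + 1) y) else 0
  rw [← h2]
  refine sum_congr rfl fun y hy => ?_
  have h3 : ∀ y' ∈ iv (j + 1) (ix (j + 1) y), (if kap y' ≤ j then φ j (ix j y') -
      φ (j + 1) (ix (j + 1) y') else 0) = if kap y ≤ j then φ j (ix j y') -
      φ (j + 1) (ix (j + 1) y) else 0 := by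
    intro y' hy'
    rw [mem_iv] at hy'
    have h4 : y' ∈ iv K m := by
      rw [mem_iv] at hy ⊢
      rw [← hy]
      exact ix_of_le hj' hy'
    rw [hy']
    exact if_congr (hs.ind hy h4 hy') rfl rfl
  rw [sum_congr rfl h3]
  split_ifs with hk
  · have h5 : ∀ n : ℤ, ∑ y' ∈ iv j n, φ j (ix j y') = 2 ^ j * φ j n := by
      intro n
      rw [sum_congr rfl fun y' hy' => by rw [mem_iv.1 hy'], sum_const, card_iv, nsmul_eq_mul]
      push_cast
      rfl
    rw [sum_sub_distrib, sum_iv_two, h5, h5, sum_const, card_iv, nsmul_eq_mul, smul_eq_mul]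
    unfold dav
    push_cast
    have h6 : (2 : ℝ) ^ (j + 1) ≠ 0 := by positivity
    rw [pow_succ] at h6 ⊢
    field_simp
  · rw [sum_const_zero, smul_zero]

/-! ### Symmetric idempotents -/

variable {ι : Type*} [Fintype ι]

theorem quad_idem {P : Matrix ι ι ℝ} (hP : P.IsHermitian) (hP2 : P * P = P) (x : ι → ℝ) :
    (P *ᵥ x) ⬝ᵥ (P *ᵥ x) = x ⬝ᵥ P *ᵥ x := by
  have e : Pᵀ = P := by
    have := hP.eq
    rwa [conjTranspose_eq_transpose_of_trivial] at this
  rw [dotProduct_mulVec, ← mulVec_transpose, e, mulVec_mulVec, hP2, dotProduct_comm]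

variable [DecidableEq ι]

theorem quad_idem_le {P : Matrix ι ι ℝ} (hP : P.IsHermitian) (hP2 : P * P = P) (x : ι → ℝ) :
    (P *ᵥ x) ⬝ᵥ (P *ᵥ x) ≤ x ⬝ᵥ x := by
  have h1 : (1 - P) * (1 - P) = 1 - P := by
    rw [Matrix.mul_sub, Matrix.mul_one, Matrix.sub_mul, Matrix.one_mul, hP2]
    simp
  have h2 : (1 - P).IsHermitian := isHermitian_one.sub hP
  have h3 := quad_idem h2 h1 x
  have h4 : 0 ≤ ((1 - P) *ᵥ x) ⬝ᵥ ((1 - P) *ᵥ x) := by
    have := dotProduct_star_self_nonneg ((1 - P) *ᵥ x)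
    simpa using this
  rw [h3, sub_mulVec, one_mulVec, dotProduct_sub] at h4
  rw [quad_idem hP hP2]
  linarith

/-! ### The pieces of a function on a window -/

variable (h : ℤ → ι → ℝ) (w : ℝ)

/-- Gram matrix on a cell -/
def Gc (k : ℕ) (n : ℤ) : Matrix ι ι ℝ := Gm (iv k n) ((2 : ℝ) ^ k)⁻¹ h

omit [DecidableEq ι] in
theorem Gc_psd (k : ℕ) (n : ℤ) : (Gc h k n).PosSemidef := Gm_psd (by positivity) h

omit [DecidableEq ι] in
theorem Gc_form (k : ℕ) (n : ℤ) (ξ : ι → ℝ) :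
    ξ ⬝ᵥ Gc h k n *ᵥ ξ = ((2 : ℝ) ^ k)⁻¹ * ∑ y ∈ iv k n, (h y ⬝ᵥ ξ) ^ 2 := Gm_form _ h ξ

omit [DecidableEq ι] in
theorem tr_mul_Gc (k : ℕ) (n : ℤ) (M : Matrix ι ι ℝ) :
    (M * Gc h k n).trace = ((2 : ℝ) ^ k)⁻¹ * ∑ y ∈ iv k n, h y ⬝ᵥ M *ᵥ h y := tr_mul_Gm M _ h

omit [DecidableEq ι] [Fintype ι] in
theorem Gc_succ (k : ℕ) (n : ℤ) :
    Gc h (k + 1) n = (1 / 2 : ℝ) • Gc h k (2 * n) + (1 / 2 : ℝ) • Gc h k (2 * n + 1) := by
  unfold Gc Gm
  rw [sum_iv_two, smul_add, smul_smul, smul_smul, pow_succ]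
  congr 2 <;> ring

/-- the energy of a cell -/
def ph (k : ℕ) (n : ℤ) : ℝ := Phi (Gc_psd h k n).1 w

/-- its increment from the cell `n` of scale `j + 1` to the two children -/
def dph (j : ℕ) (n : ℤ) : ℝ := dav (ph h w) j n

variable {w}

theorem dph_nonneg (hw : 0 ≤ w) (j : ℕ) (n : ℤ) : 0 ≤ dph h w j n := by
  have h1 := Phi_mono (Q := ({0, 1} : Finset ℤ)) (μ := fun _ => 1 / 2)
    (G := fun i => Gc h j (2 * n + i)) (T := Gc h (j + 1) n) (w := w)
    (fun _ _ => by norm_num) (by norm_num) (fun i => Gc_psd h j _) (Gc_psd h (j + 1) n)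
    (by rw [sum_pair (by norm_num), add_zero]; exact Gc_succ h j n) hw
  rw [sum_pair (by norm_num)] at h1
  have e0 : Phi (Gc_psd h j (2 * n + 0)).1 w = ph h w j (2 * n) := by
    unfold ph
    simp only [add_zero]
  rw [e0] at h1
  unfold dph dav
  unfold ph at h1 ⊢
  linarith

variable (w)

/-- the light block of a cell below the window -/
def Hc (K : ℕ) (m : ℤ) (k : ℕ) (n : ℤ) : Matrix ι ι ℝ := Hb (EP (Gc_psd h K m).1 w) (Gc h k n)

theorem Hc_psd (K : ℕ) (m : ℤ) (k : ℕ) (n : ℤ) : (Hc h w K m k n).PosSemidef :=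
  Hb_psd (EP_herm _ w) (Gc_psd h k n)

/-- the heavy projection of the window -/
def ET (K : ℕ) (m : ℤ) : Matrix ι ι ℝ := EP (Gc_psd h K m).1 w

/-- the births on a cell -/
def PT (K : ℕ) (m : ℤ) (k : ℕ) (n : ℤ) : Matrix ι ι ℝ := EP (Hc_psd h w K m k n).1 (2 * w)

/-- what remains -/
def FT (K : ℕ) (m : ℤ) (k : ℕ) (n : ℤ) : Matrix ι ι ℝ := 1 - ET h w K m - PT h w K m k n

theorem ET_herm : (ET h w K m).IsHermitian := EP_herm _ _

theorem ET_idem : ET h w K m * ET h w K m = ET h w K m := EP_idem _ _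

theorem PT_herm (k : ℕ) (n : ℤ) : (PT h w K m k n).IsHermitian := EP_herm _ _

theorem PT_idem (k : ℕ) (n : ℤ) : PT h w K m k n * PT h w K m k n = PT h w K m k n := EP_idem _ _

variable {w}

theorem ET_mul_PT (hw : 0 ≤ w) (k : ℕ) (n : ℤ) : ET h w K m * PT h w K m k n = 0 := by
  have h0 : ∀ x : ℝ, x ≤ w → (if 2 * w < x then (1 : ℝ) else 0) = 0 := fun x hx =>
    if_neg (by linarith)
  have h1 := E_mul_sp (EP_herm (Gc_psd h K m).1 w) (EP_idem (Gc_psd h K m).1 w) (Gc_psd h k n) hw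
    (f := fun x => if 2 * w < x then (1 : ℝ) else 0) h0
  exact h1

theorem PT_mul_ET (hw : 0 ≤ w) (k : ℕ) (n : ℤ) : PT h w K m k n * ET h w K m = 0 := by
  have h0 : ∀ x : ℝ, x ≤ w → (if 2 * w < x then (1 : ℝ) else 0) = 0 := fun x hx =>
    if_neg (by linarith)
  have h1 := sp_mul_E (EP_herm (Gc_psd h K m).1 w) (EP_idem (Gc_psd h K m).1 w) (Gc_psd h k n) hw
    (f := fun x => if 2 * w < x then (1 : ℝ) else 0) h0
  exact h1

theorem FT_herm (k : ℕ) (n : ℤ) : (FT h w K m k n).IsHermitian :=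
  (isHermitian_one.sub (ET_herm h w)).sub (PT_herm h w k n)

theorem FT_eq (hw : 0 ≤ w) (k : ℕ) (n : ℤ) :
    FT h w K m k n = (1 - PT h w K m k n) * (1 - ET h w K m) := by
  unfold FT
  rw [Matrix.mul_sub, Matrix.mul_one, Matrix.sub_mul, Matrix.one_mul, PT_mul_ET h hw]
  abel

theorem FT_eq' (hw : 0 ≤ w) (k : ℕ) (n : ℤ) :
    FT h w K m k n = (1 - ET h w K m) * (1 - PT h w K m k n) := by
  unfold FT
  rw [Matrix.mul_sub, Matrix.mul_one, Matrix.sub_mul, Matrix.one_mul, ET_mul_PT h hw]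
  abel

theorem FT_idem (hw : 0 ≤ w) (k : ℕ) (n : ℤ) :
    FT h w K m k n * FT h w K m k n = FT h w K m k n := by
  have e1 := ET_mul_PT (K := K) (m := m) h hw k n
  have e2 := PT_mul_ET (K := K) (m := m) h hw k n
  have e3 := ET_idem (K := K) (m := m) h w
  have e4 := PT_idem (K := K) (m := m) h w k n
  unfold FT
  simp only [Matrix.mul_sub, Matrix.sub_mul, Matrix.mul_one, Matrix.one_mul, e1, e2, e3, e4]
  abel

/-- potentials of the remaining part -/
theorem FT_pot (hw : 0 ≤ w) (k : ℕ) (n : ℤ) (ξ : ι → ℝ) :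
    ((2 : ℝ) ^ k)⁻¹ * ∑ y ∈ iv k n, ((FT h w K m k n *ᵥ h y) ⬝ᵥ ξ) ^ 2 ≤ 2 * w * (ξ ⬝ᵥ ξ) := by
  have hF := FT_herm (K := K) (m := m) h (w := w) k n
  have eF : (FT h w K m k n)ᵀ = FT h w K m k n := by
    have := hF.eq
    rwa [conjTranspose_eq_transpose_of_trivial] at this
  have h1 : ∀ y, (FT h w K m k n *ᵥ h y) ⬝ᵥ ξ = h y ⬝ᵥ FT h w K m k n *ᵥ ξ := by
    intro y
    rw [dotProduct_mulVec, ← mulVec_transpose, eF]
  simp only [h1]
  rw [← Gc_form]
  -- the form of the block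
  have h2 := fut_le (Hc_psd h w K m k n) w
  have h3 : (1 - PT h w K m k n) * Hc h w K m k n * (1 - PT h w K m k n) =
      FT h w K m k n * Gc h k n * FT h w K m k n := by
    conv_rhs => rw [FT_eq h hw]
    rw [show (1 - PT h w K m k n) * (1 - ET h w K m) * Gc h k n *
      ((1 - PT h w K m k n) * (1 - ET h w K m)) = (1 - PT h w K m k n) * (1 - ET h w K m) *
      Gc h k n * FT h w K m k n by rw [FT_eq h hw], FT_eq' h hw]
    unfold Hc Hb ET
    simp only [Matrix.mul_assoc]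
  have h4 := h2.dotProduct_mulVec_nonneg ξ
  have h5 : (1 - EP (Hc_psd h w K m k n).1 (2 * w)) * Hc h w K m k n *
      (1 - EP (Hc_psd h w K m k n).1 (2 * w)) = FT h w K m k n * Gc h k n * FT h w K m k n := h3
  rw [h5, sub_mulVec, dotProduct_sub, smul_mulVec, dotProduct_smul, smul_eq_mul] at h4
  have h6 : star ξ ⬝ᵥ (FT h w K m k n * Gc h k n * FT h w K m k n) *ᵥ ξ =
      (FT h w K m k n *ᵥ ξ) ⬝ᵥ Gc h k n *ᵥ (FT h w K m k n *ᵥ ξ) := by
    rw [← mulVec_mulVec, ← mulVec_mulVec, dotProduct_mulVec, ← mulVec_transpose, eF]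
    simp
  have h7 : star ξ ⬝ᵥ (1 - EP (Hc_psd h w K m k n).1 (2 * w)) *ᵥ ξ ≤ ξ ⬝ᵥ ξ := by
    have h8 := quad_idem_le (EP_herm (Hc_psd h w K m k n).1 (2 * w)) (EP_idem _ _) ξ
    have h9 := quad_idem (EP_herm (Hc_psd h w K m k n).1 (2 * w)) (EP_idem _ _) ξ
    have h10 : 0 ≤ ξ ⬝ᵥ EP (Hc_psd h w K m k n).1 (2 * w) *ᵥ ξ := by
      rw [← h9]
      have := dotProduct_star_self_nonneg (EP (Hc_psd h w K m k n).1 (2 * w) *ᵥ ξ)
      simpa using this
    rw [sub_mulVec, one_mulVec, dotProduct_sub]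
    simp only [star_trivial]
    linarith
  rw [h6] at h4
  have h8 := mul_le_mul_of_nonneg_left h7 (by linarith : (0 : ℝ) ≤ 2 * w)
  linarith

/-! ### The window -/

variable (w)

/-- heavy part at the top -/
def pas (K : ℕ) (m y : ℤ) : ι → ℝ := ET h w K m *ᵥ h y

/-- births in the window -/
def act (K : ℕ) (m : ℤ) (kap : ℤ → ℕ) (y : ℤ) : ι → ℝ :=
  PT h w K m (kap y) (ix (kap y) y) *ᵥ h y

/-- the rest -/
def fut (K : ℕ) (m : ℤ) (kap : ℤ → ℕ) (y : ℤ) : ι → ℝ :=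
  FT h w K m (kap y) (ix (kap y) y) *ᵥ h y

/-- (a) the decomposition -/
theorem cut_eq (y : ℤ) : h y = pas h w K m y + act h w K m kap y + fut h w K m kap y := by
  unfold pas act fut FT
  rw [sub_mulVec, sub_mulVec, one_mulVec]
  abel

theorem pas_height (y : ℤ) : pas h w K m y ⬝ᵥ pas h w K m y ≤ h y ⬝ᵥ h y :=
  quad_idem_le (ET_herm h w) (ET_idem h w) _

theorem act_height (y : ℤ) : act h w K m kap y ⬝ᵥ act h w K m kap y ≤ h y ⬝ᵥ h y :=
  quad_idem_le (PT_herm h w _ _) (PT_idem h w _ _) _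

variable {w}

theorem fut_height (hw : 0 ≤ w) (y : ℤ) :
    fut h w K m kap y ⬝ᵥ fut h w K m kap y ≤ h y ⬝ᵥ h y :=
  quad_idem_le (FT_herm h _ _) (FT_idem h hw _ _) _

/-- (b) pass: pointwise in the second slot -/
theorem pas_le (ξ : ι → ℝ) :
    w * (ξ ⬝ᵥ ET h w K m *ᵥ ξ) ≤ ((2 : ℝ) ^ K)⁻¹ * ∑ y ∈ iv K m, (h y ⬝ᵥ ξ) ^ 2 := by
  rw [← Gc_form]
  exact pass_u_pt (Gc_psd h K m) w ξ

/-- (c) potentials of the rest on the cells of `kap` -/
theorem fut_pot (hw : 0 ≤ w) (hs : Stp K m kap) {y : ℤ} (hy : y ∈ iv K m) (ξ : ι → ℝ) :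
    ∑ y' ∈ iv (kap y) (ix (kap y) y), (fut h w K m kap y' ⬝ᵥ ξ) ^ 2 ≤
      2 * w * 2 ^ kap y * (ξ ⬝ᵥ ξ) := by
  have h1 : ∀ y' ∈ iv (kap y) (ix (kap y) y), (fut h w K m kap y' ⬝ᵥ ξ) ^ 2 =
      ((FT h w K m (kap y) (ix (kap y) y) *ᵥ h y') ⬝ᵥ ξ) ^ 2 := by
    intro y' hy'
    rw [mem_iv] at hy'
    unfold fut
    rw [hs.const y hy y' hy', hy']
  rw [sum_congr rfl h1]
  have h2 := FT_pot (K := K) (m := m) h hw (kap y) (ix (kap y) y) ξ
  rw [inv_mul_le_iff₀ (by positivity)] at h2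
  linarith

/-- the mass of the births on one cell -/
theorem act_cell (hw : 0 ≤ w) (hs : Stp K m kap) {y : ℤ} (hy : y ∈ iv K m) :
    ((2 : ℝ) ^ kap y)⁻¹ * ∑ y' ∈ iv (kap y) (ix (kap y) y),
      act h w K m kap y' ⬝ᵥ act h w K m kap y' =
    (PT h w K m (kap y) (ix (kap y) y) * Hc h w K m (kap y) (ix (kap y) y)).trace := by
  set k := kap y with hk
  set n := ix k y with hn
  have h1 : ∀ y' ∈ iv k n, act h w K m kap y' ⬝ᵥ act h w K m kap y' =
      h y' ⬝ᵥ PT h w K m k n *ᵥ h y' := by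
    intro y' hy'
    rw [mem_iv] at hy'
    unfold act
    rw [hs.const y hy y' hy', ← hk, hy']
    exact quad_idem (PT_herm h w _ _) (PT_idem h w _ _) _
  rw [sum_congr rfl h1, ← tr_mul_Gc]
  have e1 := ET_mul_PT (K := K) (m := m) h hw k n
  have e2 := PT_mul_ET (K := K) (m := m) h hw k n
  have e4 : PT h w K m k n * (1 - ET h w K m) = PT h w K m k n := by
    rw [Matrix.mul_sub, Matrix.mul_one, e2, sub_zero]
  have e3 : PT h w K m k n * Hc h w K m k n =
      PT h w K m k n * Gc h k n * (1 - ET h w K m) := by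
    have e5 : Hc h w K m k n = (1 - ET h w K m) * Gc h k n * (1 - ET h w K m) := rfl
    rw [e5, ← Matrix.mul_assoc, ← Matrix.mul_assoc, e4]
  rw [e3, Matrix.trace_mul_comm (PT h w K m k n * Gc h k n), ← Matrix.mul_assoc, Matrix.sub_mul,
    Matrix.one_mul, e1, sub_zero]

/-- (d) **mass of the births** -/
theorem act_mass (hw : 0 ≤ w) (hs : Stp K m kap) :
    ∑ y ∈ iv K m, act h w K m kap y ⬝ᵥ act h w K m kap y ≤
      2 * ∑ j ∈ range K, ∑ y ∈ iv K m,
        (if kap y ≤ j then dph h w j (ix (j + 1) y) else 0) := by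
  have h1 := hs.sum_cell (M := ℝ) fun y => act h w K m kap y ⬝ᵥ act h w K m kap y
  simp only [smul_eq_mul] at h1
  rw [← h1, sum_congr rfl fun y hy => act_cell h hw hs hy]
  have hT : Gc h K m = ∑ y ∈ iv K m, ((2 : ℝ) ^ K)⁻¹ • Gc h (kap y) (ix (kap y) y) := by
    rw [← smul_sum]
    have h2 := hs.sum_cell (M := Matrix ι ι ℝ) fun y => vecMulVec (h y) (h y)
    have h3 : ∑ y ∈ iv K m, Gc h (kap y) (ix (kap y) y) = ∑ y ∈ iv K m, vecMulVec (h y) (h y) := h2
    rw [h3]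
    rfl
  have hmu : ∑ y ∈ iv K m, ((2 : ℝ) ^ K)⁻¹ = 1 := by
    rw [sum_const, card_iv, nsmul_eq_mul]
    push_cast
    exact mul_inv_cancel₀ (by positivity)
  have h4 := mass_growth (Q := iv K m) (μ := fun _ => ((2 : ℝ) ^ K)⁻¹)
    (G := fun y => Gc h (kap y) (ix (kap y) y)) (T := Gc h K m) (w := w)
    (fun _ _ => by positivity) hmu (fun y => Gc_psd h _ _) (Gc_psd h K m) hT hw
  have h5 : ∑ y ∈ iv K m, ((2 : ℝ) ^ K)⁻¹ *
      (PT h w K m (kap y) (ix (kap y) y) * Hc h w K m (kap y) (ix (kap y) y)).trace ≤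
      2 * (∑ y ∈ iv K m, ((2 : ℝ) ^ K)⁻¹ * ph h w (kap y) (ix (kap y) y) - ph h w K m) := h4
  rw [← mul_sum, ← mul_sum, hs.tele (ph h w)] at h5
  have hK : (0 : ℝ) < 2 ^ K := by positivity
  have h6 := mul_le_mul_of_nonneg_left h5 hK.le
  rw [← mul_assoc, mul_inv_cancel₀ hK.ne', one_mul] at h6
  refine h6.trans (le_of_eq ?_)
  unfold dph
  field_simp
  ring

/-- (e) **the total of the increments** -/
theorem dph_total (hw : 0 ≤ w) (N : ℕ) (M : ℤ) :
    ∑ j ∈ range N, ∑ y ∈ iv N M, dph h w j (ix (j + 1) y) ≤ ∑ y ∈ iv N M, h y ⬝ᵥ h y := by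
  have h1 := (stp_const (K := N) (m := M) (Nat.zero_le N)).tele (ph h w)
  simp only [Nat.zero_le, if_true] at h1
  have h2 : 0 ≤ ph h w N M := Phi_nonneg _ _
  have h3 : ∀ y ∈ iv N M, ph h w 0 (ix 0 y) ≤ h y ⬝ᵥ h y := by
    intro y _
    have h4 := Phi_le_trace (Gc_psd h 0 (ix 0 y)) hw
    refine h4.trans (le_of_eq ?_)
    have h5 := tr_mul_Gc h 0 (ix 0 y) 1
    rw [Matrix.one_mul] at h5
    rw [h5, ix_zero]
    have h6 : iv 0 y = {y} := by
      ext x
      rw [mem_iv, ix_zero, mem_singleton]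
    rw [h6, sum_singleton, one_mulVec]
    norm_num
  have h4 := sum_le_sum h3
  have h5 : 0 ≤ 2 ^ N * ph h w N M := by positivity
  have h6 : ∑ j ∈ range N, ∑ y ∈ iv N M, dph h w j (ix (j + 1) y) =
    ∑ j ∈ range N, ∑ y ∈ iv N M, dav (ph h w) j (ix (j + 1) y) := rfl
  rw [h6]
  linarith

end

end Vale.Agent.P141.H125
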