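import Vale.Agent.P141.H505.Node

/-!
# P141, line (A): the node inequalities in weight form

The slot is `B : Matrix m n` (rows: first vertex and labels, columns: the third variable); the
weight `1` of the parent becomes `1 - E + A` on one child and `1 - E - A` on the other, `A`
symmetric, `E` positive.  Energies `SG` of `H505.Node` (all levels at once).

* `GX_swap`, `SG_swap`: both sides of the slot;
* `SG_outer_n`, `SG_mid_n`: normalised weight;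
* `SG_outer_w`, `SG_mid_w`: weight `Th = S S`, children `Th - E ± A`;
* `wt_err`: the error terms for `be ≤ Th`.
-/

namespace Vale.Agent.P141.H125.NW

open Finset Matrix Vale.Agent.P075 Vale.Agent.P141.H505

noncomputable section

set_option linter.unusedSectionVars false
set_option linter.unusedSimpArgs false

variable {n m : Type*} [Fintype n] [DecidableEq n] [Fintype m] [DecidableEq m]

/-- the energy on both sides -/
theorem GX_swap (C : Matrix m n ℝ) : GX (Cᵀ * C) = GX (C * Cᵀ) := by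
  unfold GX ld
  rw [trace_mul_comm, det_one_add_mul_comm]

theorem sq_smul (ν : ℝ) (hν : 0 < ν) (C : Matrix m n ℝ) :
    (Real.sqrt ν • C)ᵀ * (Real.sqrt ν • C) = ν • (Cᵀ * C) := by
  rw [transpose_smul, Matrix.smul_mul, Matrix.mul_smul, smul_smul, Real.mul_self_sqrt hν.le]

theorem sq_smul' (ν : ℝ) (hν : 0 < ν) (C : Matrix m n ℝ) :
    (Real.sqrt ν • C) * (Real.sqrt ν • C)ᵀ = ν • (C * Cᵀ) := by
  rw [transpose_smul, Matrix.smul_mul, Matrix.mul_smul, smul_smul, Real.mul_self_sqrt hν.le]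

theorem sq_smul_w (ν : ℝ) (hν : 0 < ν) (C : Matrix m n ℝ) (W : Matrix m m ℝ) :
    (Real.sqrt ν • C)ᵀ * W * (Real.sqrt ν • C) = ν • (Cᵀ * W * C) := by
  rw [transpose_smul, Matrix.smul_mul, Matrix.smul_mul, Matrix.mul_smul, smul_smul,
    Real.mul_self_sqrt hν.le]

theorem SG_swap (μ : ℝ) (hμ : 0 < μ) (J : ℕ) (C : Matrix m n ℝ) :
    SG μ J (Cᵀ * C) = SG μ J (C * Cᵀ) := by
  unfold H505.SG
  refine sum_congr rfl fun j _ => ?_
  have h4 : 0 < μ / 4 ^ j := by positivity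
  rw [← sq_smul _ h4, ← sq_smul' _ h4, GX_swap]

/-! ### normalised weight -/

/-- one child; the drift is `- E`, only its positive part `F ≥ E` is paid -/
theorem GX_wtF (B : Matrix m n ℝ) {A E F : Matrix m m ℝ} (hF : F.PosSemidef)
    (hFE : (F - E).PosSemidef) (hZ : (Bᵀ * (1 - E + A) * B).PosSemidef) :
    GX (B * Bᵀ) + (A * hP (B * Bᵀ)).trace - (Bᵀ * F * B).trace ≤ GX (Bᵀ * (1 - E + A) * B) := by
  have hX : (Bᵀ * B).PosSemidef := psd_transpose_mul B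
  have hY : (B * Bᵀ).PosSemidef := psd_mul_transpose B
  have ht := GX_tangent hX hZ
  have e0 : Bᵀ * (1 - E + A) * B - Bᵀ * B = Bᵀ * A * B - Bᵀ * E * B := by
    simp only [Matrix.mul_add, Matrix.mul_sub, Matrix.add_mul, Matrix.sub_mul, Matrix.mul_one]
    abel
  have i := phi_inter hX hY (B := B) (by rw [Matrix.mul_assoc])
  have e1 : (phi (Bᵀ * B) * (Bᵀ * A * B)).trace = (A * hP (B * Bᵀ)).trace := by
    calc (phi (Bᵀ * B) * (Bᵀ * A * B)).trace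
        = ((phi (Bᵀ * B) * Bᵀ) * (A * B)).trace := by simp only [Matrix.mul_assoc]
      _ = ((A * B) * (phi (Bᵀ * B) * Bᵀ)).trace := trace_mul_comm _ _
      _ = (A * ((B * phi (Bᵀ * B)) * Bᵀ)).trace := by simp only [Matrix.mul_assoc]
      _ = (A * (phi (B * Bᵀ) * (B * Bᵀ))).trace := by rw [i]; simp only [Matrix.mul_assoc]
      _ = _ := by rw [hP_eq' hY]
  have hK : (Bᵀ * F * B).PosSemidef := by
    have h := psd_conj hF Bᵀ
    rwa [transpose_transpose] at h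
  have e2 : (phi (Bᵀ * B) * (Bᵀ * E * B)).trace ≤ (Bᵀ * F * B).trace := by
    have h := trace_mul_le_left hK (one_sub_phi_psd hX)
    rw [Matrix.one_mul] at h
    have h2 := psd_conj hFE Bᵀ
    rw [transpose_transpose, Matrix.mul_sub, Matrix.sub_mul] at h2
    exact (trace_mul_le_right (phi_psd hX) h2).trans h
  rw [e0, Matrix.mul_sub, trace_sub, e1] at ht
  rw [← GX_swap]
  linarith

theorem sub_self_psd (E : Matrix m m ℝ) : (E - E).PosSemidef := by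
  rw [sub_self]
  exact PosSemidef.zero

theorem GX_wt (B : Matrix m n ℝ) {A E : Matrix m m ℝ} (hE : E.PosSemidef)
    (hZ : (Bᵀ * (1 - E + A) * B).PosSemidef) :
    GX (B * Bᵀ) + (A * hP (B * Bᵀ)).trace - (Bᵀ * E * B).trace ≤ GX (Bᵀ * (1 - E + A) * B) :=
  GX_wtF B hE (sub_self_psd E) hZ

section outer

variable {n' : Type*} [Fintype n'] [DecidableEq n']

/-- **Outer step, normalised weight, all levels**, drift `- E`, `F ≥ E`. -/
theorem SG_outer_nF (B₀ : Matrix m n ℝ) (B₁ : Matrix m n' ℝ) {A E F : Matrix m m ℝ} (hA : Aᵀ = A)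
    (hF' : F.PosSemidef) (hFE : (F - E).PosSemidef) (hZ0 : (B₀ᵀ * (1 - E + A) * B₀).PosSemidef)
    (hZ1 : (B₁ᵀ * (1 - E - A) * B₁).PosSemidef) {μ : ℝ} (hμ : 0 < μ) (J : ℕ)
    (c0 : (1 - (μ / 4 ^ J) • (B₀ * B₀ᵀ)).PosSemidef)
    (c1 : (1 - (μ / 4 ^ J) • (B₁ * B₁ᵀ)).PosSemidef) :
    SG μ J ((1 / 2 : ℝ) • (B₀ * B₀ᵀ + B₁ * B₁ᵀ)) + (1 / 4) * SD μ J (B₀ * B₀ᵀ) (B₁ * B₁ᵀ)
      ≤ (1 / 2) * (SG μ J (B₀ᵀ * (1 - E + A) * B₀) + SG μ J (B₁ᵀ * (1 - E - A) * B₁))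
        + 32 * ((J : ℝ) + 1) ^ 3 * (((A * B₀)ᵀ * (A * B₀)).trace + ((A * B₁)ᵀ * (A * B₁)).trace)
        + (1 / 2) * ((J : ℝ) + 1) * ((B₀ᵀ * F * B₀).trace + (B₁ᵀ * F * B₁).trace) := by
  have h4 : ∀ j : ℕ, 0 < μ / 4 ^ j := fun j => by positivity
  have h0 : (B₀ * B₀ᵀ).PosSemidef := psd_mul_transpose B₀
  have h1 : (B₁ * B₁ᵀ).PosSemidef := psd_mul_transpose B₁
  set X₀ := B₀ * B₀ᵀ with hX0
  set X₁ := B₁ * B₁ᵀ with hX1
  have hF := first_le h0 h1 hμ J c0 c1 ((1 / 2 : ℝ) • A)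
    (fun j => (delt ((μ / 4 ^ j) • X₀) ((μ / 4 ^ j) • X₁)).trace) (fun j => le_rfl)
  have hw := wM_sq_le h0 h1 ((1 / 2 : ℝ) • A)
  -- one level
  have hl : ∀ j ∈ range (J + 1),
      (μ / 4 ^ j)⁻¹ * GX ((μ / 4 ^ j) • ((1 / 2 : ℝ) • (X₀ + X₁)))
        + (1 / 2) * ((μ / 4 ^ j)⁻¹ * (delt ((μ / 4 ^ j) • X₀) ((μ / 4 ^ j) • X₁)).trace)
      ≤ (1 / 2) * ((μ / 4 ^ j)⁻¹ * GX ((μ / 4 ^ j) • (B₀ᵀ * (1 - E + A) * B₀)))
        + (1 / 2) * ((μ / 4 ^ j)⁻¹ * GX ((μ / 4 ^ j) • (B₁ᵀ * (1 - E - A) * B₁)))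
        + (|2 * (((1 / 2 : ℝ) • A)ᵀ * (dY X₀ X₁ - gL (μ / 4 ^ j) X₀ X₁)).trace|
        + (1 / 2) * ((B₀ᵀ * F * B₀).trace + (B₁ᵀ * F * B₁).trace)) := by
    intro j _
    have hν := h4 j
    have p0 := smul_psd h0 (h4 j).le
    have p1 := smul_psd h1 (h4 j).le
    have r1 := R.GX_row p0 p1
    have e0 : (1 / 2 : ℝ) • ((μ / 4 ^ j) • X₀ + (μ / 4 ^ j) • X₁)
        = (μ / 4 ^ j) • ((1 / 2 : ℝ) • (X₀ + X₁)) := by module
    rw [e0] at r1
    have z0 : ((Real.sqrt (μ / 4 ^ j) • B₀)ᵀ * (1 - E + A) *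
        (Real.sqrt (μ / 4 ^ j) • B₀)).PosSemidef := by
      rw [sq_smul_w _ hν]
      exact smul_psd hZ0 hν.le
    have z1 : ((Real.sqrt (μ / 4 ^ j) • B₁)ᵀ * (1 - E + -A) *
        (Real.sqrt (μ / 4 ^ j) • B₁)).PosSemidef := by
      rw [sq_smul_w _ hν, ← sub_eq_add_neg]
      exact smul_psd hZ1 hν.le
    have t0 := GX_wtF (Real.sqrt (μ / 4 ^ j) • B₀) hF' hFE z0
    have t1 := GX_wtF (Real.sqrt (μ / 4 ^ j) • B₁) (A := -A) hF' hFE z1
    rw [sq_smul' _ hν, sq_smul_w _ hν, sq_smul_w _ hν, ← hX0, trace_smul, smul_eq_mul] at t0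
    rw [sq_smul' _ hν, sq_smul_w _ hν, sq_smul_w _ hν, ← hX1, trace_smul, smul_eq_mul,
      ← sub_eq_add_neg, Matrix.neg_mul, trace_neg] at t1
    have e3 := first_eq h0 h1 hν ((1 / 2 : ℝ) • A)
    have eD : 2 * (((1 / 2 : ℝ) • A)ᵀ * (dY ((μ / 4 ^ j) • X₀) ((μ / 4 ^ j) • X₁)
        - hdiff ((μ / 4 ^ j) • X₀) ((μ / 4 ^ j) • X₁))).trace
        = (1 / 2) * ((A * hP ((μ / 4 ^ j) • X₀)).trace - (A * hP ((μ / 4 ^ j) • X₁)).trace) := by
      rw [← trace_sub, ← Matrix.mul_sub, hP_diff, transpose_smul, hA, Matrix.smul_mul,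
        Matrix.mul_smul, trace_smul, trace_smul, smul_eq_mul, smul_eq_mul]
      ring
    have hi : 0 < (μ / 4 ^ j)⁻¹ := inv_pos.mpr hν
    have e5 : (μ / 4 ^ j)⁻¹ * (μ / 4 ^ j) = 1 := inv_mul_cancel₀ hν.ne'
    have r3 := mul_le_mul_of_nonneg_left (add_le_add r1 (add_le_add t0 t1)) hi.le
    have e4 := neg_abs_le (2 * (((1 / 2 : ℝ) • A)ᵀ * (dY X₀ X₁ - gL (μ / 4 ^ j) X₀ X₁)).trace)
    rw [← e3, eD] at e4 ⊢
    set ν := μ / 4 ^ j
    set a := (A * hP (ν • X₀)).trace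
    set b := (A * hP (ν • X₁)).trace
    set k0 := (B₀ᵀ * F * B₀).trace
    set k1 := (B₁ᵀ * F * B₁).trace
    have f1 := mul_le_mul_of_nonneg_left r1 hi.le
    have f2 := mul_le_mul_of_nonneg_left t0 hi.le
    have f3 := mul_le_mul_of_nonneg_left t1 hi.le
    have g0 : ν⁻¹ * (ν * k0) = k0 := by rw [← mul_assoc, e5, one_mul]
    have g1 : ν⁻¹ * (ν * k1) = k1 := by rw [← mul_assoc, e5, one_mul]
    rw [mul_sub, mul_add, g0] at f2
    rw [mul_sub, mul_add, g1] at f3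
    linarith
  have hs := sum_le_sum hl
  simp only [sum_add_distrib, ← mul_sum, sum_const, card_range, nsmul_eq_mul] at hs
  push_cast at hs
  have hJ : (0 : ℝ) ≤ 64 * ((J : ℝ) + 1) ^ 3 := by positivity
  -- the weights
  have q0 : (((1 / 2 : ℝ) • A)ᵀ * X₀ * ((1 / 2 : ℝ) • A)).trace
      = (1 / 4) * ((A * B₀)ᵀ * (A * B₀)).trace := by
    have : ((1 / 2 : ℝ) • A)ᵀ * X₀ * ((1 / 2 : ℝ) • A) = (1 / 4 : ℝ) • ((A * B₀) * (A * B₀)ᵀ) := by
      rw [hX0, transpose_smul, transpose_mul, hA]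
      simp only [Matrix.smul_mul, Matrix.mul_smul, smul_smul, Matrix.mul_assoc]
      norm_num
    rw [this, trace_smul, smul_eq_mul, trace_mul_comm]
  have q1 : (((1 / 2 : ℝ) • A) * X₁ * ((1 / 2 : ℝ) • A)ᵀ).trace
      = (1 / 4) * ((A * B₁)ᵀ * (A * B₁)).trace := by
    have : ((1 / 2 : ℝ) • A) * X₁ * ((1 / 2 : ℝ) • A)ᵀ = (1 / 4 : ℝ) • ((A * B₁) * (A * B₁)ᵀ) := by
      rw [hX1, transpose_smul, transpose_mul, hA]
      simp only [Matrix.smul_mul, Matrix.mul_smul, smul_smul, Matrix.mul_assoc]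
      norm_num
    rw [this, trace_smul, smul_eq_mul, trace_mul_comm]
  rw [q0, q1] at hw
  have hw2 := mul_le_mul_of_nonneg_left hw hJ
  have f1 : SG μ J ((1 / 2 : ℝ) • (X₀ + X₁))
      = ∑ j ∈ range (J + 1), (μ / 4 ^ j)⁻¹ * GX ((μ / 4 ^ j) • ((1 / 2 : ℝ) • (X₀ + X₁))) := rfl
  have f2 : SD μ J X₀ X₁ = ∑ j ∈ range (J + 1),
      (μ / 4 ^ j)⁻¹ * (delt ((μ / 4 ^ j) • X₀) ((μ / 4 ^ j) • X₁)).trace := rfl
  have f3 : SG μ J (B₀ᵀ * (1 - E + A) * B₀) = ∑ j ∈ range (J + 1),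
      (μ / 4 ^ j)⁻¹ * GX ((μ / 4 ^ j) • (B₀ᵀ * (1 - E + A) * B₀)) := rfl
  have f4 : SG μ J (B₁ᵀ * (1 - E - A) * B₁) = ∑ j ∈ range (J + 1),
      (μ / 4 ^ j)⁻¹ * GX ((μ / 4 ^ j) • (B₁ᵀ * (1 - E - A) * B₁)) := rfl
  rw [← f1, ← f2, ← f3, ← f4] at hs
  rw [← f2] at hF
  nlinarith [hs, hF, hw2]

/-- **Outer step, normalised weight, all levels.** -/
theorem SG_outer_n (B₀ : Matrix m n ℝ) (B₁ : Matrix m n' ℝ) {A E : Matrix m m ℝ} (hA : Aᵀ = A)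
    (hE : E.PosSemidef) (hZ0 : (B₀ᵀ * (1 - E + A) * B₀).PosSemidef)
    (hZ1 : (B₁ᵀ * (1 - E - A) * B₁).PosSemidef) {μ : ℝ} (hμ : 0 < μ) (J : ℕ)
    (c0 : (1 - (μ / 4 ^ J) • (B₀ * B₀ᵀ)).PosSemidef)
    (c1 : (1 - (μ / 4 ^ J) • (B₁ * B₁ᵀ)).PosSemidef) :
    SG μ J ((1 / 2 : ℝ) • (B₀ * B₀ᵀ + B₁ * B₁ᵀ)) + (1 / 4) * SD μ J (B₀ * B₀ᵀ) (B₁ * B₁ᵀ)
      ≤ (1 / 2) * (SG μ J (B₀ᵀ * (1 - E + A) * B₀) + SG μ J (B₁ᵀ * (1 - E - A) * B₁))
        + 32 * ((J : ℝ) + 1) ^ 3 * (((A * B₀)ᵀ * (A * B₀)).trace + ((A * B₁)ᵀ * (A * B₁)).trace)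
        + (1 / 2) * ((J : ℝ) + 1) * ((B₀ᵀ * E * B₀).trace + (B₁ᵀ * E * B₁).trace) :=
  SG_outer_nF B₀ B₁ hA hE (sub_self_psd E) hZ0 hZ1 hμ J c0 c1

end outer

section mid

variable {r : Matrix n n ℝ} (hr : rᵀ = r) (hr2 : r * r = 1)

/-- the moved Gram matrix of the middle step: weight `Wp` on the half `1 + r`, `Wq` on `1 - r` -/
def ZM (r : Matrix n n ℝ) (B : Matrix m n ℝ) (Wp Wq : Matrix m m ℝ) : Matrix n n ℝ :=
  (1 / 2 : ℝ) • ((1 + r) * (Bᵀ * Wp * B) * (1 + r) + (1 - r) * (Bᵀ * Wq * B) * (1 - r))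

omit [DecidableEq m] in
include hr in
theorem ZM_psd {B : Matrix m n ℝ} {Wp Wq : Matrix m m ℝ} (hp : (Bᵀ * Wp * B).PosSemidef)
    (hq : (Bᵀ * Wq * B).PosSemidef) : (ZM r B Wp Wq).PosSemidef := by
  unfold ZM
  refine PosSemidef.smul (PosSemidef.add ?_ ?_) (by norm_num)
  · exact psd_conj_symm hp (by rw [transpose_add, transpose_one, hr])
  · exact psd_conj_symm hq (by rw [transpose_sub, transpose_one, hr])

omit [DecidableEq m] in
theorem ZM_smul (r : Matrix n n ℝ) (ν : ℝ) (hν : 0 < ν) (B : Matrix m n ℝ) (Wp Wq : Matrix m m ℝ) :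
    ZM r (Real.sqrt ν • B) Wp Wq = ν • ZM r B Wp Wq := by
  classical
  unfold ZM
  rw [sq_smul_w _ hν, sq_smul_w _ hν]
  simp only [Matrix.mul_smul, Matrix.smul_mul, ← smul_add]
  rw [smul_comm]

include hr hr2 in
/-- change of the energy, middle step -/
theorem GX_wt_midF (B : Matrix m n ℝ) {A E F : Matrix m m ℝ} (hF' : F.PosSemidef)
    (hFE : (F - E).PosSemidef)
    (hp : (Bᵀ * (1 - E + A) * B).PosSemidef) (hq : (Bᵀ * (1 - E - A) * B).PosSemidef) :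
    (1 / 2) * GX (Bᵀ * B + r * (Bᵀ * B) * r)
        + (A * (dY (B * (1 + r) * Bᵀ) (B * (1 - r) * Bᵀ)
          - hdiff (B * (1 + r) * Bᵀ) (B * (1 - r) * Bᵀ))).trace - (Bᵀ * F * B).trace
      ≤ (1 / 2) * GX (ZM r B (1 - E + A) (1 - E - A)) := by
  have hX : (Bᵀ * B).PosSemidef := psd_transpose_mul B
  have hXb : (Bᵀ * B + r * (Bᵀ * B) * r).PosSemidef := hX.add (refl_psd hX hr)
  have hZ := ZM_psd hr hp hq
  have ht := GX_tangent hXb hZ
  have hrW : r * phi (Bᵀ * B + r * (Bᵀ * B) * r) * r = phi (Bᵀ * B + r * (Bᵀ * B) * r) := by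
    rw [← phi_refl hXb hr hr2]
    congr 1
    rw [Matrix.mul_add, Matrix.add_mul]
    have : r * (r * (Bᵀ * B) * r) * r = Bᵀ * B := refl_refl hr2 _
    rw [this, add_comm]
  have hf := mid_first hr hr2 B
  have h1W := one_sub_phi_psd hXb
  rw [← hf]
  set W := phi (Bᵀ * B + r * (Bᵀ * B) * r) with hWdef
  have hcomm : W * r = r * W := by
    have : r * W * r * r = W * r := by rw [hrW]
    rw [Matrix.mul_assoc (r * W), hr2, Matrix.mul_one] at this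
    exact this.symm
  set K := Bᵀ * E * B with hK
  set L := Bᵀ * A * B with hL
  set K' := Bᵀ * F * B with hK'
  have hKp : K'.PosSemidef := by
    have h := psd_conj hF' Bᵀ
    rwa [transpose_transpose] at h
  have hKK : (K' - K).PosSemidef := by
    have h := psd_conj hFE Bᵀ
    rwa [transpose_transpose, Matrix.mul_sub, Matrix.sub_mul] at h
  have e0 : ZM r B (1 - E + A) (1 - E - A) - (Bᵀ * B + r * (Bᵀ * B) * r)
      = (L * r + r * L) - (K + r * K * r) := by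
    have a1 : Bᵀ * (1 - E + A) * B = Bᵀ * B - K + L := by
      simp only [Matrix.mul_add, Matrix.mul_sub, Matrix.add_mul, Matrix.sub_mul, Matrix.mul_one,
        hK, hL]
    have a2 : Bᵀ * (1 - E - A) * B = Bᵀ * B - K - L := by
      simp only [Matrix.mul_sub, Matrix.sub_mul, Matrix.mul_one, hK, hL]
    unfold ZM
    rw [a1, a2]
    simp only [Matrix.mul_add, Matrix.mul_sub, Matrix.add_mul, Matrix.sub_mul, Matrix.mul_one,
      Matrix.one_mul]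
    module
  have e1 : (W * (L * r)).trace = (A * (B * r * W * Bᵀ)).trace := by
    calc (W * (L * r)).trace = ((W * Bᵀ) * (A * B * r)).trace := by
          simp only [hL, Matrix.mul_assoc]
      _ = ((A * B * r) * (W * Bᵀ)).trace := trace_mul_comm _ _
      _ = _ := by simp only [Matrix.mul_assoc]
  have e2 : (W * (r * L)).trace = (A * (B * r * W * Bᵀ)).trace := by
    calc (W * (r * L)).trace = ((W * r * Bᵀ) * (A * B)).trace := by
          simp only [hL, Matrix.mul_assoc]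
      _ = ((A * B) * (W * r * Bᵀ)).trace := trace_mul_comm _ _
      _ = _ := by rw [hcomm]; simp only [Matrix.mul_assoc]
  have hKr : (K' + r * K' * r).PosSemidef := hKp.add (refl_psd hKp hr)
  have hKKr : (K' + r * K' * r - (K + r * K * r)).PosSemidef := by
    have e : K' + r * K' * r - (K + r * K * r) = (K' - K) + r * (K' - K) * r := by
      rw [Matrix.mul_sub, Matrix.sub_mul]
      abel
    rw [e]
    exact hKK.add (refl_psd hKK hr)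
  have e3 : (W * (K + r * K * r)).trace ≤ 2 * K'.trace := by
    have h := trace_mul_le_left hKr h1W
    rw [Matrix.one_mul, trace_add] at h
    have h2 : (r * K' * r).trace = K'.trace := by
      rw [trace_mul_comm, ← Matrix.mul_assoc, hr2, Matrix.one_mul]
    rw [h2] at h
    have h3 := trace_mul_le_right (phi_psd hXb) hKKr
    rw [← hWdef] at h3
    linarith
  rw [e0, Matrix.mul_sub, trace_sub, Matrix.mul_add, trace_add, e1, e2] at ht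
  linarith

include hr hr2 in
/-- change of the energy, middle step -/
theorem GX_wt_mid (B : Matrix m n ℝ) {A E : Matrix m m ℝ} (hE : E.PosSemidef)
    (hp : (Bᵀ * (1 - E + A) * B).PosSemidef) (hq : (Bᵀ * (1 - E - A) * B).PosSemidef) :
    (1 / 2) * GX (Bᵀ * B + r * (Bᵀ * B) * r)
        + (A * (dY (B * (1 + r) * Bᵀ) (B * (1 - r) * Bᵀ)
          - hdiff (B * (1 + r) * Bᵀ) (B * (1 - r) * Bᵀ))).trace - (Bᵀ * E * B).trace
      ≤ (1 / 2) * GX (ZM r B (1 - E + A) (1 - E - A)) :=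
  GX_wt_midF hr hr2 B hE (sub_self_psd E) hp hq

include hr hr2 in
/-- **Middle step, normalised weight, all levels**, drift `- E`, `F ≥ E`. -/
theorem SG_mid_nF (B : Matrix m n ℝ) {A E F : Matrix m m ℝ} (hA : Aᵀ = A)
    (hF' : F.PosSemidef) (hFE : (F - E).PosSemidef)
    (hp : (Bᵀ * (1 - E + A) * B).PosSemidef) (hq : (Bᵀ * (1 - E - A) * B).PosSemidef)
    {μ : ℝ} (hμ : 0 < μ) (J : ℕ)
    (c0 : (1 - (μ / 4 ^ J) • (B * (1 + r) * Bᵀ)).PosSemidef)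
    (c1 : (1 - (μ / 4 ^ J) • (B * (1 - r) * Bᵀ)).PosSemidef) :
    SG μ J (Bᵀ * B) + (1 / 4) * SC μ J r (Bᵀ * B)
      ≤ (1 / 2) * SG μ J (ZM r B (1 - E + A) (1 - E - A))
        + 64 * ((J : ℝ) + 1) ^ 3 * ((A * B)ᵀ * (A * B)).trace
        + ((J : ℝ) + 1) * (Bᵀ * F * B).trace := by
  have h4 : ∀ j : ℕ, 0 < μ / 4 ^ j := fun j => by positivity
  have h0 := plus_psd hr hr2 B
  have h1 := minus_psd hr hr2 B
  have hX : (Bᵀ * B).PosSemidef := psd_transpose_mul B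
  set Y0 := B * (1 + r) * Bᵀ with hY0
  set Y1 := B * (1 - r) * Bᵀ with hY1
  set Z := ZM r B (1 - E + A) (1 - E - A) with hZ
  have sY0 : ∀ ν : ℝ, 0 < ν → (Real.sqrt ν • B) * (1 + r) * (Real.sqrt ν • B)ᵀ = ν • Y0 := by
    intro ν hν
    rw [transpose_smul, Matrix.mul_smul, Matrix.smul_mul, Matrix.smul_mul, smul_smul,
      Real.mul_self_sqrt hν.le]
  have sY1 : ∀ ν : ℝ, 0 < ν → (Real.sqrt ν • B) * (1 - r) * (Real.sqrt ν • B)ᵀ = ν • Y1 := by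
    intro ν hν
    rw [transpose_smul, Matrix.mul_smul, Matrix.smul_mul, Matrix.smul_mul, smul_smul,
      Real.mul_self_sqrt hν.le]
  have hF := first_le h0 h1 hμ J c0 c1 ((1 / 2 : ℝ) • A)
    (fun j => (phi ((μ / 4 ^ j) • (Bᵀ * B)) * (r * phi ((μ / 4 ^ j) • (Bᵀ * B)) * r)).trace)
    (fun j => by
      have h := delt_le_cd hr hr2 (Real.sqrt (μ / 4 ^ j) • B)
      rwa [sq_smul _ (h4 j), sY0 _ (h4 j), sY1 _ (h4 j)] at h)
  have hw := wM_sq_le h0 h1 ((1 / 2 : ℝ) • A)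
  -- one level
  have hl : ∀ j ∈ range (J + 1),
      (μ / 4 ^ j)⁻¹ * GX ((μ / 4 ^ j) • (Bᵀ * B))
        + (1 / 2) * ((μ / 4 ^ j)⁻¹
          * (phi ((μ / 4 ^ j) • (Bᵀ * B)) * (r * phi ((μ / 4 ^ j) • (Bᵀ * B)) * r)).trace)
      ≤ (1 / 2) * ((μ / 4 ^ j)⁻¹ * GX ((μ / 4 ^ j) • Z))
        + (|2 * (((1 / 2 : ℝ) • A)ᵀ * (dY Y0 Y1 - gL (μ / 4 ^ j) Y0 Y1)).trace|
        + (Bᵀ * F * B).trace) := by
    intro j _
    have hν := h4 j
    have r1 := GX_pinch hr hr2 (smul_psd hX hν.le)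
    have zp : ((Real.sqrt (μ / 4 ^ j) • B)ᵀ * (1 - E + A) *
        (Real.sqrt (μ / 4 ^ j) • B)).PosSemidef := by
      rw [sq_smul_w _ hν]
      exact smul_psd hp hν.le
    have zq : ((Real.sqrt (μ / 4 ^ j) • B)ᵀ * (1 - E - A) *
        (Real.sqrt (μ / 4 ^ j) • B)).PosSemidef := by
      rw [sq_smul_w _ hν]
      exact smul_psd hq hν.le
    have r2 := GX_wt_midF hr hr2 (Real.sqrt (μ / 4 ^ j) • B) hF' hFE zp zq
    rw [sq_smul _ hν, sY0 _ hν, sY1 _ hν, sq_smul_w _ hν, ZM_smul r _ hν, ← hZ, trace_smul,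
      smul_eq_mul] at r2
    have e3 := first_eq h0 h1 hν ((1 / 2 : ℝ) • A)
    have eD : 2 * (((1 / 2 : ℝ) • A)ᵀ * (dY ((μ / 4 ^ j) • Y0) ((μ / 4 ^ j) • Y1)
        - hdiff ((μ / 4 ^ j) • Y0) ((μ / 4 ^ j) • Y1))).trace
        = (A * (dY ((μ / 4 ^ j) • Y0) ((μ / 4 ^ j) • Y1)
        - hdiff ((μ / 4 ^ j) • Y0) ((μ / 4 ^ j) • Y1))).trace := by
      rw [transpose_smul, hA, Matrix.smul_mul, trace_smul, smul_eq_mul]
      ring
    have hi : 0 < (μ / 4 ^ j)⁻¹ := inv_pos.mpr hν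
    have e5 : (μ / 4 ^ j)⁻¹ * (μ / 4 ^ j) = 1 := inv_mul_cancel₀ hν.ne'
    have e4 := neg_abs_le (2 * (((1 / 2 : ℝ) • A)ᵀ * (dY Y0 Y1 - gL (μ / 4 ^ j) Y0 Y1)).trace)
    rw [← e3, eD] at e4 ⊢
    have e6 : (μ / 4 ^ j) • (Bᵀ * B) + r * ((μ / 4 ^ j) • (Bᵀ * B)) * r
        = (μ / 4 ^ j) • (Bᵀ * B) + r * ((μ / 4 ^ j) • (Bᵀ * B)) * r := rfl
    have f1 := mul_le_mul_of_nonneg_left r1 hi.le
    have f2 := mul_le_mul_of_nonneg_left r2 hi.le
    set ν := μ / 4 ^ j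
    set k0 := (Bᵀ * F * B).trace
    have g0 : ν⁻¹ * (ν * k0) = k0 := by rw [← mul_assoc, e5, one_mul]
    rw [mul_sub, mul_add, g0] at f2
    linarith
  have hs := sum_le_sum hl
  simp only [sum_add_distrib, ← mul_sum, sum_const, card_range, nsmul_eq_mul] at hs
  push_cast at hs
  have hJ : (0 : ℝ) ≤ 64 * ((J : ℝ) + 1) ^ 3 := by positivity
  -- the weights
  have q : (((1 / 2 : ℝ) • A)ᵀ * Y0 * ((1 / 2 : ℝ) • A)).trace
      + (((1 / 2 : ℝ) • A) * Y1 * ((1 / 2 : ℝ) • A)ᵀ).trace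
      = (1 / 2) * ((A * B)ᵀ * (A * B)).trace := by
    have : ((1 / 2 : ℝ) • A)ᵀ * Y0 * ((1 / 2 : ℝ) • A) + ((1 / 2 : ℝ) • A) * Y1 *
        ((1 / 2 : ℝ) • A)ᵀ = (1 / 2 : ℝ) • ((A * B) * (A * B)ᵀ) := by
      rw [hY0, hY1, transpose_smul, transpose_mul, hA]
      simp only [Matrix.smul_mul, Matrix.mul_smul, smul_smul, Matrix.mul_add, Matrix.mul_sub,
        Matrix.add_mul, Matrix.sub_mul, Matrix.mul_one, Matrix.mul_assoc]
      module
    rw [← trace_add, this, trace_smul, smul_eq_mul, trace_mul_comm]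
  rw [q] at hw
  have hw2 := mul_le_mul_of_nonneg_left hw hJ
  have f1 : SG μ J (Bᵀ * B)
      = ∑ j ∈ range (J + 1), (μ / 4 ^ j)⁻¹ * GX ((μ / 4 ^ j) • (Bᵀ * B)) := rfl
  have f2 : SC μ J r (Bᵀ * B) = ∑ j ∈ range (J + 1), (μ / 4 ^ j)⁻¹
      * (phi ((μ / 4 ^ j) • (Bᵀ * B)) * (r * phi ((μ / 4 ^ j) • (Bᵀ * B)) * r)).trace := rfl
  have f3 : SG μ J Z = ∑ j ∈ range (J + 1), (μ / 4 ^ j)⁻¹ * GX ((μ / 4 ^ j) • Z) := rfl
  rw [← f1, ← f2, ← f3] at hs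
  rw [← f2] at hF
  nlinarith [hs, hF, hw2]

include hr hr2 in
/-- **Middle step, normalised weight, all levels.** -/
theorem SG_mid_n (B : Matrix m n ℝ) {A E : Matrix m m ℝ} (hA : Aᵀ = A) (hE : E.PosSemidef)
    (hp : (Bᵀ * (1 - E + A) * B).PosSemidef) (hq : (Bᵀ * (1 - E - A) * B).PosSemidef)
    {μ : ℝ} (hμ : 0 < μ) (J : ℕ)
    (c0 : (1 - (μ / 4 ^ J) • (B * (1 + r) * Bᵀ)).PosSemidef)
    (c1 : (1 - (μ / 4 ^ J) • (B * (1 - r) * Bᵀ)).PosSemidef) :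
    SG μ J (Bᵀ * B) + (1 / 4) * SC μ J r (Bᵀ * B)
      ≤ (1 / 2) * SG μ J (ZM r B (1 - E + A) (1 - E - A))
        + 64 * ((J : ℝ) + 1) ^ 3 * ((A * B)ᵀ * (A * B)).trace
        + ((J : ℝ) + 1) * (Bᵀ * E * B).trace :=
  SG_mid_nF hr hr2 B hA hE (sub_self_psd E) hp hq hμ J c0 c1

end mid

/-! ### a general weight -/

section weight

/-- the square root of a positive definite weight -/
structure Rt (Th S Si : Matrix m m ℝ) : Prop where
  s : Sᵀ = S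
  si : Siᵀ = Si
  l : Si * S = 1
  r : S * Si = 1
  sq : S * S = Th

theorem exists_Rt {Th : Matrix m m ℝ} (h : Th.PosDef) : ∃ S Si, Rt Th S Si := by
  obtain ⟨S, hS, hSS⟩ := exists_sq h.posSemidef
  have hs := psd_isSymm hS
  have hd : IsUnit S.det := by
    have h1 : S.det * S.det = Th.det := by rw [← det_mul, hSS]
    have h2 := h.det_pos
    rw [isUnit_iff_ne_zero]
    intro h3
    rw [h3, mul_zero] at h1
    linarith
  refine ⟨S, S⁻¹, hs, ?_, Matrix.nonsing_inv_mul _ hd, Matrix.mul_nonsing_inv _ hd, hSS⟩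
  rw [transpose_nonsing_inv, hs]

variable {Th S Si : Matrix m m ℝ} (hR : Rt Th S Si)

include hR in
theorem Rt.w0 (C : Matrix m n ℝ) (A E : Matrix m m ℝ) :
    (S * C)ᵀ * (1 - Si * E * Si + Si * A * Si) * (S * C) = Cᵀ * (Th - E + A) * C := by
  rw [transpose_mul, hR.s, ← hR.sq]
  calc Cᵀ * S * (1 - Si * E * Si + Si * A * Si) * (S * C)
      = Cᵀ * (S * S - (S * Si) * E * (Si * S) + (S * Si) * A * (Si * S)) * C := by
        simp only [Matrix.mul_add, Matrix.mul_sub, Matrix.add_mul, Matrix.sub_mul, Matrix.mul_one,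
          Matrix.mul_assoc]
    _ = _ := by rw [hR.r, hR.l]; simp only [Matrix.one_mul, Matrix.mul_one]

include hR in
theorem Rt.w1 (C : Matrix m n ℝ) (A E : Matrix m m ℝ) :
    (S * C)ᵀ * (1 - Si * E * Si - Si * A * Si) * (S * C) = Cᵀ * (Th - E - A) * C := by
  have h := hR.w0 C (-A) E
  rwa [Matrix.mul_neg, Matrix.neg_mul, ← sub_eq_add_neg, ← sub_eq_add_neg] at h

include hR in
theorem Rt.wA (C : Matrix m n ℝ) (A : Matrix m m ℝ) : Si * A * Si * (S * C) = Si * A * C := by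
  calc Si * A * Si * (S * C) = Si * A * (Si * S) * C := by simp only [Matrix.mul_assoc]
    _ = _ := by rw [hR.l, Matrix.mul_one]

include hR in
theorem Rt.wE (C : Matrix m n ℝ) (E : Matrix m m ℝ) :
    (S * C)ᵀ * (Si * E * Si) * (S * C) = Cᵀ * E * C := by
  rw [transpose_mul, hR.s]
  calc Cᵀ * S * (Si * E * Si) * (S * C) = Cᵀ * ((S * Si) * E * (Si * S)) * C := by
        simp only [Matrix.mul_assoc]
    _ = _ := by rw [hR.r, hR.l, Matrix.one_mul, Matrix.mul_one]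

include hR in
/-- **Outer step, weight `Th`, all levels**, drift `- E`, `F ≥ E`. -/
theorem SG_outer_wF {n' : Type*} [Fintype n'] [DecidableEq n'] (C₀ : Matrix m n ℝ)
    (C₁ : Matrix m n' ℝ) {A E F : Matrix m m ℝ} (hA : Aᵀ = A)
    (hF' : F.PosSemidef) (hFE : (F - E).PosSemidef)
    (hT0 : (Th - E + A).PosSemidef) (hT1 : (Th - E - A).PosSemidef) {μ : ℝ} (hμ : 0 < μ) (J : ℕ)
    (c0 : (1 - (μ / 4 ^ J) • (S * (C₀ * C₀ᵀ) * S)).PosSemidef)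
    (c1 : (1 - (μ / 4 ^ J) • (S * (C₁ * C₁ᵀ) * S)).PosSemidef) :
    SG μ J ((1 / 2 : ℝ) • (S * (C₀ * C₀ᵀ) * S + S * (C₁ * C₁ᵀ) * S))
        + (1 / 4) * SD μ J (S * (C₀ * C₀ᵀ) * S) (S * (C₁ * C₁ᵀ) * S)
      ≤ (1 / 2) * (SG μ J (C₀ᵀ * (Th - E + A) * C₀) + SG μ J (C₁ᵀ * (Th - E - A) * C₁))
        + 32 * ((J : ℝ) + 1) ^ 3 * (((Si * A * C₀)ᵀ * (Si * A * C₀)).trace
          + ((Si * A * C₁)ᵀ * (Si * A * C₁)).trace)
        + (1 / 2) * ((J : ℝ) + 1) * ((C₀ᵀ * F * C₀).trace + (C₁ᵀ * F * C₁).trace) := by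
  have e0 : (S * C₀) * (S * C₀)ᵀ = S * (C₀ * C₀ᵀ) * S := by
    rw [transpose_mul, hR.s]
    simp only [Matrix.mul_assoc]
  have e1 : (S * C₁) * (S * C₁)ᵀ = S * (C₁ * C₁ᵀ) * S := by
    rw [transpose_mul, hR.s]
    simp only [Matrix.mul_assoc]
  have hA' : (Si * A * Si)ᵀ = Si * A * Si := by
    rw [transpose_mul, transpose_mul, hR.si, hA, ← Matrix.mul_assoc]
  have hE' : (Si * F * Si).PosSemidef := psd_conj_symm hF' hR.si
  have hE2 : (Si * F * Si - Si * E * Si).PosSemidef := by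
    have h := psd_conj_symm hFE hR.si
    rwa [Matrix.mul_sub, Matrix.sub_mul] at h
  have z0 : (C₀ᵀ * (Th - E + A) * C₀).PosSemidef := by
    have h := psd_conj hT0 C₀ᵀ
    rwa [transpose_transpose] at h
  have z1 : (C₁ᵀ * (Th - E - A) * C₁).PosSemidef := by
    have h := psd_conj hT1 C₁ᵀ
    rwa [transpose_transpose] at h
  have h := SG_outer_nF (S * C₀) (S * C₁) hA' hE' hE2 (by rwa [hR.w0]) (by rwa [hR.w1]) hμ J
    (by rwa [e0]) (by rwa [e1])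
  rwa [e0, e1, hR.w0, hR.w1, hR.wA, hR.wA, hR.wE, hR.wE] at h

include hR in
/-- **Outer step, weight `Th`, all levels.** -/
theorem SG_outer_w {n' : Type*} [Fintype n'] [DecidableEq n'] (C₀ : Matrix m n ℝ)
    (C₁ : Matrix m n' ℝ) {A E : Matrix m m ℝ} (hA : Aᵀ = A) (hE : E.PosSemidef)
    (hT0 : (Th - E + A).PosSemidef) (hT1 : (Th - E - A).PosSemidef) {μ : ℝ} (hμ : 0 < μ) (J : ℕ)
    (c0 : (1 - (μ / 4 ^ J) • (S * (C₀ * C₀ᵀ) * S)).PosSemidef)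
    (c1 : (1 - (μ / 4 ^ J) • (S * (C₁ * C₁ᵀ) * S)).PosSemidef) :
    SG μ J ((1 / 2 : ℝ) • (S * (C₀ * C₀ᵀ) * S + S * (C₁ * C₁ᵀ) * S))
        + (1 / 4) * SD μ J (S * (C₀ * C₀ᵀ) * S) (S * (C₁ * C₁ᵀ) * S)
      ≤ (1 / 2) * (SG μ J (C₀ᵀ * (Th - E + A) * C₀) + SG μ J (C₁ᵀ * (Th - E - A) * C₁))
        + 32 * ((J : ℝ) + 1) ^ 3 * (((Si * A * C₀)ᵀ * (Si * A * C₀)).trace
          + ((Si * A * C₁)ᵀ * (Si * A * C₁)).trace)
        + (1 / 2) * ((J : ℝ) + 1) * ((C₀ᵀ * E * C₀).trace + (C₁ᵀ * E * C₁).trace) :=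
  SG_outer_wF hR C₀ C₁ hA hE (sub_self_psd E) hT0 hT1 hμ J c0 c1

include hR in
/-- **Middle step, weight `Th`, all levels**, drift `- E`, `F ≥ E`. -/
theorem SG_mid_wF {r : Matrix n n ℝ} (hr : rᵀ = r) (hr2 : r * r = 1) (C : Matrix m n ℝ)
    {A E F : Matrix m m ℝ} (hA : Aᵀ = A)
    (hF' : F.PosSemidef) (hFE : (F - E).PosSemidef)
    (hT0 : (Th - E + A).PosSemidef) (hT1 : (Th - E - A).PosSemidef) {μ : ℝ} (hμ : 0 < μ) (J : ℕ)
    (c0 : (1 - (μ / 4 ^ J) • (S * (C * (1 + r) * Cᵀ) * S)).PosSemidef)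
    (c1 : (1 - (μ / 4 ^ J) • (S * (C * (1 - r) * Cᵀ) * S)).PosSemidef) :
    SG μ J (Cᵀ * Th * C) + (1 / 4) * SC μ J r (Cᵀ * Th * C)
      ≤ (1 / 2) * SG μ J (ZM r C (Th - E + A) (Th - E - A))
        + 64 * ((J : ℝ) + 1) ^ 3 * ((Si * A * C)ᵀ * (Si * A * C)).trace
        + ((J : ℝ) + 1) * (Cᵀ * F * C).trace := by
  have e0 : (S * C) * (1 + r) * (S * C)ᵀ = S * (C * (1 + r) * Cᵀ) * S := by
    rw [transpose_mul, hR.s]
    simp only [Matrix.mul_assoc]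
  have e1 : (S * C) * (1 - r) * (S * C)ᵀ = S * (C * (1 - r) * Cᵀ) * S := by
    rw [transpose_mul, hR.s]
    simp only [Matrix.mul_assoc]
  have e2 : (S * C)ᵀ * (S * C) = Cᵀ * Th * C := by
    rw [transpose_mul, hR.s, ← hR.sq]
    simp only [Matrix.mul_assoc]
  have hA' : (Si * A * Si)ᵀ = Si * A * Si := by
    rw [transpose_mul, transpose_mul, hR.si, hA, ← Matrix.mul_assoc]
  have hE' : (Si * F * Si).PosSemidef := psd_conj_symm hF' hR.si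
  have hE2 : (Si * F * Si - Si * E * Si).PosSemidef := by
    have h := psd_conj_symm hFE hR.si
    rwa [Matrix.mul_sub, Matrix.sub_mul] at h
  have z0 : (Cᵀ * (Th - E + A) * C).PosSemidef := by
    have h := psd_conj hT0 Cᵀ
    rwa [transpose_transpose] at h
  have z1 : (Cᵀ * (Th - E - A) * C).PosSemidef := by
    have h := psd_conj hT1 Cᵀ
    rwa [transpose_transpose] at h
  have h := SG_mid_nF hr hr2 (S * C) hA' hE' hE2 (by rwa [hR.w0]) (by rwa [hR.w1]) hμ J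
    (by rwa [e0]) (by rwa [e1])
  have e3 : ZM r (S * C) (1 - Si * E * Si + Si * A * Si) (1 - Si * E * Si - Si * A * Si)
      = ZM r C (Th - E + A) (Th - E - A) := by
    unfold ZM
    rw [hR.w0, hR.w1]
  rwa [e2, e3, hR.wA, hR.wE] at h

include hR in
/-- **Middle step, weight `Th`, all levels.** -/
theorem SG_mid_w {r : Matrix n n ℝ} (hr : rᵀ = r) (hr2 : r * r = 1) (C : Matrix m n ℝ)
    {A E : Matrix m m ℝ} (hA : Aᵀ = A) (hE : E.PosSemidef)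
    (hT0 : (Th - E + A).PosSemidef) (hT1 : (Th - E - A).PosSemidef) {μ : ℝ} (hμ : 0 < μ) (J : ℕ)
    (c0 : (1 - (μ / 4 ^ J) • (S * (C * (1 + r) * Cᵀ) * S)).PosSemidef)
    (c1 : (1 - (μ / 4 ^ J) • (S * (C * (1 - r) * Cᵀ) * S)).PosSemidef) :
    SG μ J (Cᵀ * Th * C) + (1 / 4) * SC μ J r (Cᵀ * Th * C)
      ≤ (1 / 2) * SG μ J (ZM r C (Th - E + A) (Th - E - A))
        + 64 * ((J : ℝ) + 1) ^ 3 * ((Si * A * C)ᵀ * (Si * A * C)).trace
        + ((J : ℝ) + 1) * (Cᵀ * E * C).trace :=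
  SG_mid_wF hR hr hr2 C hA hE (sub_self_psd E) hT0 hT1 hμ J c0 c1

include hR in
/-- the error terms for a weight `Th ≥ be` -/
theorem wt_err {be : ℝ} (hbe : 0 < be) (hTh : (Th - be • (1 : Matrix m m ℝ)).PosSemidef)
    (D : Matrix m n ℝ) : ((Si * D)ᵀ * (Si * D)).trace ≤ be⁻¹ * (Dᵀ * D).trace := by
  have h1 := psd_conj_symm hTh hR.si
  have e1 : Si * (Th - be • (1 : Matrix m m ℝ)) * Si = 1 - be • (Si * Si) := by
    rw [← hR.sq]
    calc Si * (S * S - be • (1 : Matrix m m ℝ)) * Si = (Si * S) * (S * Si) - be • (Si * Si) := by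
          simp only [Matrix.mul_sub, Matrix.sub_mul, Matrix.mul_smul, Matrix.smul_mul,
            Matrix.mul_one, Matrix.mul_assoc]
      _ = _ := by rw [hR.l, hR.r, Matrix.one_mul]
  rw [e1] at h1
  have h2 := quad_nonneg h1 D
  have e2 : Dᵀ * (1 - be • (Si * Si)) * D = Dᵀ * D - be • ((Si * D)ᵀ * (Si * D)) := by
    rw [transpose_mul, hR.si]
    simp only [Matrix.mul_sub, Matrix.sub_mul, Matrix.mul_smul, Matrix.smul_mul,
      Matrix.mul_one, Matrix.mul_assoc]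
  rw [e2, trace_sub, trace_smul, smul_eq_mul] at h2
  rw [inv_mul_eq_div, le_div_iff₀ hbe]
  linarith

end weight

end

end Vale.Agent.P141.H125.NW
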