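import Vale.Agent.P141.H912.TVpgL
import Vale.Agent.P141.H457.RealBC
import Vale.Agent.P141.H435.OwnE

/-!
# P141, line (A), TI, the pair `(B~, C~)`: the own families of the hub `x₁` in real letters

`bc_mid` : the middle step with changes of the slot; `sum_CP` : traces are plain sums over points;
`rH`, `rZM`, `rZE`, `rZQ`, `rQm` : the fields of `H419.TVpg.WFam` in plain sums;
`cap_out` : the caps.
-/

set_option linter.unusedSectionVars false

namespace Vale.Agent.P141.H125.OBC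

open Finset Matrix
open Vale.Agent.P075 (Ix val bd rad res phi exists_sq psd_isSymm psd_conj_symm trace_mul_nonneg GX ld)
open Vale.Agent.P141.PL (iv ix mem_iv ix_ix)
open Vale.Agent.P141.PL.H588 (hd)
open Vale.Agent.P141.PL.H103 Vale.Agent.P141.H103
open Vale.Agent.P141.H505 (SG SC)
open Vale.Agent.P141.H336 (bsum_mono bsum_smul bsum_add bsum_mid bsum_outer)
open Vale.Agent.P141.H457 Vale.Agent.P141.H874
open Vale.Agent.P141.H419.TVpg (eM eE eQ)

noncomputable section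

/-! ### The energy of a block diagonal matrix -/

section bdl

variable {m n : Type*} [Fintype m] [DecidableEq m] [Fintype n] [DecidableEq n]

theorem SG_bd {A D : Matrix n n ℝ} (hA : A.PosSemidef) (hD : D.PosSemidef) {μ : ℝ} (hμ : 0 < μ)
    (J : ℕ) : SG μ J (bd A D) = SG μ J A + SG μ J D := by
  unfold SG
  rw [← sum_add_distrib]
  refine sum_congr rfl fun j _ => ?_
  have h4 : 0 ≤ μ / 4 ^ j := by positivity
  have e : (μ / 4 ^ j) • bd A D = bd ((μ / 4 ^ j) • A) ((μ / 4 ^ j) • D) := by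
    rw [bd, bd, fromBlocks_smul, smul_zero]
  rw [e, GX, GX, GX, P075.trace_bd, P075.ld_bd (hA.smul h4) (hD.smul h4)]
  ring

theorem SG_sub (e : m ≃ n) (μ : ℝ) (J : ℕ) (X : Matrix n n ℝ) :
    SG μ J (X.submatrix e e) = SG μ J X := by
  unfold SG
  refine sum_congr rfl fun j _ => ?_
  have h : (μ / 4 ^ j) • X.submatrix e e = ((μ / 4 ^ j) • X).submatrix e e := rfl
  rw [h, GX_sub]

end bdl

variable {κ : Type*} [Fintype κ] [DecidableEq κ]

section real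

variable {be : ℝ} {T e d : ℕ → ℤ → ℤ → Matrix κ κ ℝ}

/-- the slot seen through the root of the weight of the outer cell `(a, n)` -/
def wc (be : ℝ) (T : ℕ → ℤ → ℤ → Matrix κ κ ℝ) (a : ℕ) (n : ℤ) (c : ℤ → ℤ → κ → ℝ) :
    ℤ → ℤ → κ → ℝ := fun x w => H408.sq (be • (1 : Matrix κ κ ℝ) + T a x n) *ᵥ c x w

/-- **Conjugation with the root of the weight.** -/
theorem SD_CP (hb : 0 < be) (hT : ∀ k x m, (T k x m).PosSemidef) (c : ℤ → ℤ → κ → ℝ) (k a : ℕ)
    (n m : ℤ) :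
    H457.SD be T k a n m * CP c k a n m * H457.SD be T k a n m = CP (wc be T a n c) k a n m := by
  have hs : (fun x => (H408.sq (be • (1 : Matrix κ κ ℝ) + T a x n))ᵀ) =
      fun x => H408.sq (be • (1 : Matrix κ κ ℝ) + T a x n) := by
    funext x
    exact (sqT_spec hb hT a x n).1.isHermitian
  have h := CP_conj (fun x => H408.sq (be • (1 : Matrix κ κ ℝ) + T a x n)) c k a n m
  rw [hs] at h
  exact h

theorem SD_CP_psd (hb : 0 < be) (hT : ∀ k x m, (T k x m).PosSemidef) (c : ℤ → ℤ → κ → ℝ)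
    (k a : ℕ) (n m : ℤ) :
    (H457.SD be T k a n m * CP c k a n m * H457.SD be T k a n m).PosSemidef := by
  rw [SD_CP hb hT]
  exact CP_psd _ _ _ _ _

/-- trace of the energy -/
theorem tr_SD (hb : 0 < be) (hT : ∀ k x m, (T k x m).PosSemidef) (c : ℤ → ℤ → κ → ℝ)
    (k a : ℕ) (n m : ℤ) :
    (H457.SD be T k a n m * CP c k a n m * H457.SD be T k a n m).trace =
      (CP c k a n m * DB k m fun x => be • (1 : Matrix κ κ ℝ) + T a x n).trace := by
  have h : H457.SD be T k a n m * H457.SD be T k a n m = WD be T k a n m := SD_sq hb hT k a n m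
  rw [Matrix.mul_assoc, trace_mul_comm, Matrix.mul_assoc, h]
  rfl

/-- the middle step, static -/
theorem mid_static (hb : 0 < be) (hT : ∀ k x m, (T k x m).PosSemidef) (c : ℤ → ℤ → κ → ℝ)
    {μ : ℝ} (hμ : 0 < μ) (J k a : ℕ) (n m : ℤ) :
    SG μ J (H457.SD be T (k + 1) a n m * CP c (k + 1) a n m * H457.SD be T (k + 1) a n m
        + sk (k + 1) κ * (H457.SD be T (k + 1) a n m * CP c (k + 1) a n m *
          H457.SD be T (k + 1) a n m) * sk (k + 1) κ) =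
      SG μ J (H457.SD be T k a n (2 * m) * CP c k a n (2 * m) * H457.SD be T k a n (2 * m))
        + SG μ J (H457.SD be T k a n (2 * m + 1) * CP c k a n (2 * m + 1) *
          H457.SD be T k a n (2 * m + 1)) := by
  rw [SD_CP hb hT, SD_CP hb hT, SD_CP hb hT,
    ← SG_bd (CP_psd _ _ _ _ _) (CP_psd _ _ _ _ _) hμ J, ← SG_sub (eS k κ)]
  have hsub : (sk (k + 1) κ).submatrix (eS k κ) (eS k κ) = rad (Ix k × κ) := sk_split k
  rw [submatrix_add, Pi.add_apply, Pi.add_apply, ← mul_sub', ← mul_sub', hsub]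
  congr 1
  exact BM_split k m _

/-- one half: the change of the slot -/
theorem chg_half (hb : 0 < be) (hT : ∀ k x m, (T k x m).PosSemidef) {P : ℤ → ℤ → Prop} {k : ℕ}
    {f f' : ℤ → ℤ → κ → ℝ} (h : ∀ w m, ¬ P w m → ∀ x ∈ iv k m, f' x w = f x w)
    {μ : ℝ} (hμ : 0 < μ) (J a : ℕ) (n m : ℤ) :
    SG μ J (H457.SD be T k a n m * CP f' k a n m * H457.SD be T k a n m) ≤
      SG μ J (H457.SD be T k a n m * CP f k a n m * H457.SD be T k a n m)
        + ((J : ℝ) + 1) * (CP (rs P k f') k a n m * DB k m fun x =>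
          be • (1 : Matrix κ κ ℝ) + T a x n).trace := by
  have g := CP_change h a n m
  have a1 := H435.SG_mono (SD_CP_psd hb hT f' k a n m) (SD_CP_psd hb hT (rs P k f) k a n m) hμ J
  have a2 := H435.SG_add_le (SD_CP_psd hb hT f k a n m) (SD_CP_psd hb hT (rs P k f') k a n m) hμ J
  rw [tr_SD hb hT] at a2
  have e1 : ∀ g h : ℤ → ℤ → κ → ℝ,
      H457.SD be T k a n m * CP g k a n m * H457.SD be T k a n m +
        H457.SD be T k a n m * CP h k a n m * H457.SD be T k a n m =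
      H457.SD be T k a n m * (CP g k a n m + CP h k a n m) * H457.SD be T k a n m := by
    intro g h
    rw [Matrix.mul_add, Matrix.add_mul]
  rw [e1] at a1 a2
  rw [← g] at a1
  exact a1.trans a2

/-- price of the changes of the slot at the middle step -/
def pc (J : ℕ) (be : ℝ) (T : ℕ → ℤ → ℤ → Matrix κ κ ℝ) (P : ℕ → ℤ → ℤ → Prop)
    (c : ℕ → ℤ → ℤ → κ → ℝ) (k a : ℕ) (n m : ℤ) : ℝ :=
  (1 / 2) * (((J : ℝ) + 1) * (CP (rs (P k) k (c (k + 1))) k a n (2 * m) * DB k (2 * m) fun x =>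
      be • (1 : Matrix κ κ ℝ) + T a x n).trace +
    ((J : ℝ) + 1) * (CP (rs (P k) k (c (k + 1))) k a n (2 * m + 1) * DB k (2 * m + 1) fun x =>
      be • (1 : Matrix κ κ ℝ) + T a x n).trace)

/-- **The middle step with changes** = field `mid` of `WFam`. -/
theorem bc_mid (hb : 0 < be) (hT : ∀ k x m, (T k x m).PosSemidef) {P : ℕ → ℤ → ℤ → Prop} {k : ℕ}
    {c : ℕ → ℤ → ℤ → κ → ℝ}
    (h : ∀ w m, ¬ P k w m → ∀ x ∈ iv k m, c (k + 1) x w = c k x w)
    {μ : ℝ} (hμ : 0 < μ) (J a : ℕ) (n m : ℤ) :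
    (1 / 2) * SG μ J (H457.SD be T (k + 1) a n m * CP (c (k + 1)) (k + 1) a n m *
        H457.SD be T (k + 1) a n m
        + sk (k + 1) κ * (H457.SD be T (k + 1) a n m * CP (c (k + 1)) (k + 1) a n m *
          H457.SD be T (k + 1) a n m) * sk (k + 1) κ) ≤
      (1 / 2) * (SG μ J (H457.SD be T k a n (2 * m) * CP (c k) k a n (2 * m) *
          H457.SD be T k a n (2 * m))
        + SG μ J (H457.SD be T k a n (2 * m + 1) * CP (c k) k a n (2 * m + 1) *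
          H457.SD be T k a n (2 * m + 1))) + pc J be T P c k a n m := by
  rw [mid_static hb hT _ hμ]
  have c0 := chg_half hb hT h hμ J a n (2 * m)
  have c1 := chg_half hb hT h hμ J a n (2 * m + 1)
  unfold pc
  linarith

/-! ### Plain sums -/

/-- the energy of a slot against a form `F a x n` of the outer cell of `w` -/
def en (N : ℕ) (R S : ℤ) (a : ℕ) (F : ℤ → ℤ → Matrix κ κ ℝ) (f : ℤ → ℤ → κ → ℝ) : ℝ :=
  ∑ x ∈ iv N S, ∑ w ∈ iv N R, f x w ⬝ᵥ F x (ix a w) *ᵥ f x w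

/-- **Traces are plain sums over points.** -/
theorem sum_CP {N k a : ℕ} (hk : k ≤ N) (ha : a ≤ N) (R S : ℤ) (F : ℤ → ℤ → Matrix κ κ ℝ)
    (f : ℤ → ℤ → κ → ℝ) :
    H336.bsum N R S k a (fun n m => (CP f k a n m * DB k m fun x => F x n).trace) = en N R S a F f := by
  unfold H336.bsum en
  have h : ∀ m ∈ iv (N - k) S, ∑ n ∈ iv (N - a) R, (CP f k a n m * DB k m fun x => F x n).trace
      = ((2 : ℝ) ^ k * 2 ^ a)⁻¹ * ∑ x ∈ iv k m, ∑ w ∈ iv N R, f x w ⬝ᵥ F x (ix a w) *ᵥ f x w := by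
    intro m _
    simp only [trace_CP_DB]
    rw [← Finset.mul_sum, Finset.sum_comm]
    congr 1
    refine Finset.sum_congr rfl fun x _ => ?_
    exact H258.sum_sub ha R fun n w => f x w ⬝ᵥ F x n *ᵥ f x w
  rw [Finset.sum_congr rfl h, ← Finset.mul_sum, ← mul_assoc,
    H258.sum_sub hk S fun _ x => ∑ w ∈ iv N R, f x w ⬝ᵥ F x (ix a w) *ᵥ f x w]
  have e : (2 : ℝ) ^ a * 2 ^ k * ((2 : ℝ) ^ k * 2 ^ a)⁻¹ = 1 := by
    rw [mul_comm ((2 : ℝ) ^ a)]
    exact mul_inv_cancel₀ (by positivity)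
  rw [e, one_mul]

/-- two children of the outer cell -/
theorem two_CP {N k a : ℕ} (hka : k ≤ a) (ha : a < N) (R S : ℤ) (F : ℤ → ℤ → Matrix κ κ ℝ)
    (f : ℤ → ℤ → κ → ℝ) :
    H336.bsum N R S k (a + 1) (fun n m => ((DB k m fun x => F x n) * CP f k a (2 * n) m).trace +
      ((DB k m fun x => F x n) * CP f k a (2 * n + 1) m).trace) = 2 * en N R S (a + 1) F f := by
  rw [← sum_CP (show k ≤ N by omega) (show a + 1 ≤ N from ha), ← bsum_smul]
  congr 1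
  funext n m
  rw [CP_out N k f a hka ha n m, Matrix.smul_mul, trace_smul, smul_eq_mul,
    Matrix.add_mul, trace_add, trace_mul_comm (CP f k a (2 * n) m), trace_mul_comm
    (CP f k a (2 * n + 1) m)]
  ring

/-- the weight of the outer cell -/
def Wx (be : ℝ) (T : ℕ → ℤ → ℤ → Matrix κ κ ℝ) (a : ℕ) (x n : ℤ) : Matrix κ κ ℝ :=
  be • (1 : Matrix κ κ ℝ) + T a x n

theorem rH (hb : 0 < be) (hT : ∀ k x m, (T k x m).PosSemidef) {N k a : ℕ} (hk : k ≤ N)
    (ha : a ≤ N) (R S : ℤ) (f : ℤ → ℤ → κ → ℝ) :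
    H336.bsum N R S k a (fun n m =>
      (H457.SD be T k a n m * H457.SD be T k a n m * CP f k a n m).trace) =
      en N R S a (Wx be T a) f := by
  rw [← sum_CP hk ha]
  congr 1
  funext n m
  rw [SD_sq hb hT, trace_mul_comm]
  rfl

/-- `M S⁻² M` is block diagonal -/
theorem DSSD (hb : 0 < be) (hT : ∀ k x m, (T k x m).PosSemidef) (D : ℤ → Matrix κ κ ℝ)
    (k a : ℕ) (n m : ℤ) :
    DB k m D * ((H457.SD be T k a n m)⁻¹ * (H457.SD be T k a n m)⁻¹) * DB k m D =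
      DB k m fun x => D x * (Wx be T a x n)⁻¹ * D x := by
  rw [← Matrix.mul_inv_rev, SD_sq hb hT]
  exact MWM hb hT D k a n m

theorem rZM (hb : 0 < be) (hT : ∀ k x m, (T k x m).PosSemidef) {N k a : ℕ} (hka : k ≤ a)
    (ha : a < N) (R S : ℤ) (f : ℤ → ℤ → κ → ℝ) :
    H336.bsum N R S k (a + 1) (fun n m => eM (H457.SD be T k (a + 1) n m) (TD d k a n m)
      (CP f k a (2 * n) m) (CP f k a (2 * n + 1) m)) =
      2 * en N R S (a + 1) (fun x n => d a x n * (Wx be T (a + 1) x n)⁻¹ * d a x n) f := by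
  rw [← two_CP hka ha]
  congr 1
  funext n m
  unfold eM
  rw [show TD d k a n m = DB k m fun x => d a x n from rfl, DSSD hb hT]

theorem rZE {N k a : ℕ} (hka : k ≤ a) (ha : a < N) (R S : ℤ) (f : ℤ → ℤ → κ → ℝ) :
    H336.bsum N R S k (a + 1) (fun n m => eE (TD e k a n m)
      (CP f k a (2 * n) m) (CP f k a (2 * n + 1) m)) =
      2 * en N R S (a + 1) (fun x n => e a x n) f := by
  rw [← two_CP hka ha]
  rfl

theorem rZQ {N k a : ℕ} (hka : k ≤ a) (ha : a < N) (R S : ℤ) (f : ℤ → ℤ → κ → ℝ) :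
    H336.bsum N R S k (a + 1) (fun n m => eQ (TD e k a n m) (TD d k a n m)
      (CP f k a (2 * n) m) (CP f k a (2 * n + 1) m)) =
      2 * en N R S (a + 1) (fun x n => d a x n * d a x n) f +
        2 * en N R S (a + 1) (fun x n => e a x n * e a x n) f := by
  rw [← two_CP hka ha, ← two_CP hka ha, ← bsum_add]
  congr 1
  funext n m
  unfold eQ
  rw [show TD d k a n m = DB k m fun x => d a x n from rfl,
    show TD e k a n m = DB k m fun x => e a x n from rfl, DB_mul, DB_mul, Matrix.mul_add,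
    Matrix.mul_add, trace_add, trace_add]

theorem rQm {N k a : ℕ} (hk : k < N) (ha : a ≤ N) (R S : ℤ) (J : ℕ) (P : ℕ → ℤ → ℤ → Prop)
    (c : ℕ → ℤ → ℤ → κ → ℝ) :
    H336.bsum N R S (k + 1) a (fun n m => pc J be T P c k a n m) =
      ((J : ℝ) + 1) * en N R S a (Wx be T a) (rs (P k) k (c (k + 1))) := by
  have h := bsum_mid (a := a) hk R S fun n m => ((J : ℝ) + 1) *
    (CP (rs (P k) k (c (k + 1))) k a n m * DB k m fun x => Wx be T a x n).trace
  have h2 := H336.bsum_smul N R S k a ((J : ℝ) + 1) fun n m =>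
    (CP (rs (P k) k (c (k + 1))) k a n m * DB k m fun x => Wx be T a x n).trace
  rw [sum_CP hk.le ha] at h2
  exact h.trans h2

/-- **The caps** of the outer step from the caps of the slot. -/
theorem cap_out (hb : 0 < be) (hT : ∀ k x m, (T k x m).PosSemidef) {N k a : ℕ} (hka : k ≤ a)
    (ha : a < N) {f : ℤ → ℤ → κ → ℝ} {q ν : ℝ} (hν : 0 ≤ ν) (hq : ν * (2 * q) ≤ 1) {n m : ℤ}
    (cap : (q • (1 : Matrix (Ix k × κ) (Ix k × κ) ℝ) - H457.SD be T k (a + 1) n m *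
      CP f k (a + 1) n m * H457.SD be T k (a + 1) n m).PosSemidef) :
    (1 - ν • (H457.SD be T k (a + 1) n m * CP f k a (2 * n) m *
        H457.SD be T k (a + 1) n m)).PosSemidef ∧
      (1 - ν • (H457.SD be T k (a + 1) n m * CP f k a (2 * n + 1) m *
        H457.SD be T k (a + 1) n m)).PosSemidef := by
  have pS := psd_isSymm (SD_psd hb hT k (a + 1) n m)
  set X := H457.SD be T k (a + 1) n m with hX
  have p0 := (P075.psd_conj_symm (CP_psd f k a (2 * n) m) pS)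
  have p1 := (P075.psd_conj_symm (CP_psd f k a (2 * n + 1) m) pS)
  rw [CP_out N k f a hka ha n m, Matrix.mul_smul, Matrix.smul_mul, Matrix.mul_add,
    Matrix.add_mul] at cap
  set Y₀ := X * CP f k a (2 * n) m * X with hY0
  set Y₁ := X * CP f k a (2 * n + 1) m * X with hY1
  have hone : ((1 - ν * (2 * q)) • (1 : Matrix (Ix k × κ) (Ix k × κ) ℝ)).PosSemidef :=
    PosSemidef.one.smul (sub_nonneg.2 hq)
  have hc := cap.smul (show (0 : ℝ) ≤ 2 * ν by positivity)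
  constructor
  · have h := (hone.add hc).add (p1.smul hν)
    convert h using 1
    module
  · have h := (hone.add hc).add (p0.smul hν)
    convert h using 1
    module

end real

/-! ### Forms -/

section forms

theorem inv_form {be : ℝ} (hb : 0 < be) {T : Matrix κ κ ℝ} (hT : T.PosSemidef) (z : κ → ℝ) :
    z ⬝ᵥ (be • (1 : Matrix κ κ ℝ) + T)⁻¹ *ᵥ z ≤ be⁻¹ * (z ⬝ᵥ z) := by
  have hW : (be • (1 : Matrix κ κ ℝ) + T).PosDef := (PosDef.one.smul hb).add_posSemidef hT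
  have hun : IsUnit (be • (1 : Matrix κ κ ℝ) + T).det := (isUnit_iff_isUnit_det _).mp hW.isUnit
  set u := (be • (1 : Matrix κ κ ℝ) + T)⁻¹ *ᵥ z with hu
  have h1 : (be • (1 : Matrix κ κ ℝ) + T) *ᵥ u = z := by
    rw [hu, mulVec_mulVec, mul_nonsing_inv _ hun, one_mulVec]
  have h2 : z = be • u + T *ᵥ u := by
    rw [← h1, add_mulVec, smul_mulVec, one_mulVec]
  have h3 : 0 ≤ u ⬝ᵥ T *ᵥ u := H420.quad_nonneg hT u
  have h4 : 0 ≤ (T *ᵥ u) ⬝ᵥ (T *ᵥ u) := Finset.sum_nonneg fun i _ => mul_self_nonneg _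
  have e1 : z ⬝ᵥ z = be * (z ⬝ᵥ u) + z ⬝ᵥ (T *ᵥ u) := by
    have : z ⬝ᵥ z = z ⬝ᵥ (be • u + T *ᵥ u) := by rw [← h2]
    rw [this, dotProduct_add, dotProduct_smul, smul_eq_mul]
  have e2 : z ⬝ᵥ (T *ᵥ u) = be * (u ⬝ᵥ T *ᵥ u) + (T *ᵥ u) ⬝ᵥ (T *ᵥ u) := by
    have : z ⬝ᵥ (T *ᵥ u) = (be • u + T *ᵥ u) ⬝ᵥ (T *ᵥ u) := by rw [← h2]
    rw [this, add_dotProduct, smul_dotProduct, smul_eq_mul]
  rw [le_inv_mul_iff₀ hb, e1, e2]
  have := mul_nonneg hb.le h3
  linarith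

theorem form_mid {D M : Matrix κ κ ℝ} (hD : Dᵀ = D) (v : κ → ℝ) :
    v ⬝ᵥ (D * M * D) *ᵥ v = (D *ᵥ v) ⬝ᵥ M *ᵥ (D *ᵥ v) := by
  rw [← mulVec_mulVec, ← mulVec_mulVec, dotProduct_mulVec, ← mulVec_transpose, hD]

theorem form_sq {D : Matrix κ κ ℝ} (hD : Dᵀ = D) (v : κ → ℝ) :
    v ⬝ᵥ (D * D) *ᵥ v = (D *ᵥ v) ⬝ᵥ (D *ᵥ v) := by
  rw [← mulVec_mulVec, dotProduct_mulVec, ← mulVec_transpose, hD]

theorem form_EE {τ : ℝ} {E : Matrix κ κ ℝ} (hE : E.PosSemidef)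
    (hτ : (τ • (1 : Matrix κ κ ℝ) - E).PosSemidef) (v : κ → ℝ) :
    v ⬝ᵥ (E * E) *ᵥ v ≤ τ * (v ⬝ᵥ E *ᵥ v) := by
  obtain ⟨B, hB, hBB⟩ := P075.exists_sq hE
  have sB : Bᵀ = B := P075.psd_isSymm hB
  have h3 := P075.psd_conj_symm hτ sB
  have e : B * (τ • 1 - E) * B = τ • E - E * E := by
    rw [← hBB, Matrix.mul_sub, Matrix.sub_mul, Matrix.mul_smul, Matrix.smul_mul, Matrix.mul_one]
    simp only [Matrix.mul_assoc]
  rw [e] at h3
  have h := H420.quad_nonneg h3 v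
  rw [sub_mulVec, smul_mulVec, dotProduct_sub, dotProduct_smul, smul_eq_mul] at h
  linarith

variable {T e d : ℕ → ℤ → ℤ → Matrix κ κ ℝ}

/-- the drift is at most the weight of the parent -/
theorem e_le (h : H419.Wt T e d) {τ : ℝ}
    (hτ : ∀ k x m, (τ • (1 : Matrix κ κ ℝ) - T k x m).PosSemidef) (k : ℕ) (x m : ℤ) :
    (τ • (1 : Matrix κ κ ℝ) - e k x m).PosSemidef := by
  have h1 := ((h.ps k x (2 * m)).add (h.ps k x (2 * m + 1))).smul
    (show (0 : ℝ) ≤ 1 / 2 by norm_num)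
  rw [h.even, h.odd] at h1
  have h2 := (hτ (k + 1) x m).add h1
  convert h2 using 1
  module

end forms

/-! ### The numbers, per lag -/

section num

variable {be τ : ℝ} {T e d : ℕ → ℤ → ℤ → Matrix κ κ ℝ}

theorem en_mono {N : ℕ} {R S : ℤ} {a : ℕ} {F G : ℤ → ℤ → Matrix κ κ ℝ} {f : ℤ → ℤ → κ → ℝ}
    (h : ∀ x n v, v ⬝ᵥ F x n *ᵥ v ≤ v ⬝ᵥ G x n *ᵥ v) : en N R S a F f ≤ en N R S a G f :=
  sum_le_sum fun x _ => sum_le_sum fun w _ => h _ _ _

theorem en_nonneg {N : ℕ} {R S : ℤ} {a : ℕ} {F : ℤ → ℤ → Matrix κ κ ℝ}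
    (h : ∀ x n, (F x n).PosSemidef) (f : ℤ → ℤ → κ → ℝ) : 0 ≤ en N R S a F f :=
  sum_nonneg fun x _ => sum_nonneg fun w _ => H420.quad_nonneg (h _ _) _

/-- the moves, plain -/
def vr (N : ℕ) (R S : ℤ) (d : ℕ → ℤ → ℤ → Matrix κ κ ℝ) (a : ℕ) (f : ℤ → ℤ → κ → ℝ) : ℝ :=
  ∑ x ∈ iv N S, ∑ w ∈ iv N R, (d a x (ix (a + 1) w) *ᵥ f x w) ⬝ᵥ (d a x (ix (a + 1) w) *ᵥ f x w)

/-- the drifts, plain -/
def dr (N : ℕ) (R S : ℤ) (e : ℕ → ℤ → ℤ → Matrix κ κ ℝ) (a : ℕ) (f : ℤ → ℤ → κ → ℝ) : ℝ :=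
  ∑ x ∈ iv N S, ∑ w ∈ iv N R, f x w ⬝ᵥ e a x (ix (a + 1) w) *ᵥ f x w

/-- the changes, plain -/
def br (N : ℕ) (R S : ℤ) (be : ℝ) (T : ℕ → ℤ → ℤ → Matrix κ κ ℝ) (P : ℕ → ℤ → ℤ → Prop)
    (c : ℕ → ℤ → ℤ → κ → ℝ) (k a : ℕ) : ℝ :=
  en N R S a (Wx be T a) (rs (P k) k (c (k + 1)))

open scoped Classical in
theorem br_eq (N : ℕ) (R S : ℤ) (be : ℝ) (T : ℕ → ℤ → ℤ → Matrix κ κ ℝ) (P : ℕ → ℤ → ℤ → Prop)
    (c : ℕ → ℤ → ℤ → κ → ℝ) (k a : ℕ) : br N R S be T P c k a =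
      ∑ x ∈ iv N S, ∑ w ∈ iv N R, if P k w (ix k x) then
        c (k + 1) x w ⬝ᵥ (be • (1 : Matrix κ κ ℝ) + T a x (ix a w)) *ᵥ c (k + 1) x w else 0 := by
  unfold br en rs Wx
  refine sum_congr rfl fun x _ => sum_congr rfl fun w _ => ?_
  split_ifs with h
  · rfl
  · rw [zero_dotProduct]

theorem Wx_psd (hb : 0 < be) (hT : ∀ k x m, (T k x m).PosSemidef) (a : ℕ) (x n : ℤ) :
    (Wx be T a x n).PosSemidef := (PosSemidef.one.smul hb.le).add (hT a x n)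

theorem zm_le (hb : 0 < be) (h : H419.Wt T e d) (N : ℕ) (R S : ℤ) (a : ℕ) (f : ℤ → ℤ → κ → ℝ) :
    en N R S (a + 1) (fun x n => d a x n * (Wx be T (a + 1) x n)⁻¹ * d a x n) f ≤
      be⁻¹ * vr N R S d a f := by
  unfold en vr
  rw [Finset.mul_sum]
  refine sum_le_sum fun x _ => ?_
  rw [Finset.mul_sum]
  refine sum_le_sum fun w _ => ?_
  rw [form_mid (h.d_symm a x _)]
  exact inv_form hb (h.ps _ _ _) _

theorem zq_eq (h : H419.Wt T e d) (N : ℕ) (R S : ℤ) (a : ℕ) (f : ℤ → ℤ → κ → ℝ) :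
    en N R S (a + 1) (fun x n => d a x n * d a x n) f = vr N R S d a f := by
  unfold en vr
  refine sum_congr rfl fun x _ => sum_congr rfl fun w _ => ?_
  rw [form_sq (h.d_symm a x _)]

theorem zee_le (h : H419.Wt T e d)
    (hτ : ∀ k x m, (τ • (1 : Matrix κ κ ℝ) - T k x m).PosSemidef) (N : ℕ) (R S : ℤ) (a : ℕ)
    (f : ℤ → ℤ → κ → ℝ) :
    en N R S (a + 1) (fun x n => e a x n * e a x n) f ≤ τ * dr N R S e a f := by
  unfold en dr
  rw [Finset.mul_sum]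
  refine sum_le_sum fun x _ => ?_
  rw [Finset.mul_sum]
  refine sum_le_sum fun w _ => ?_
  exact form_EE (h.pe _ _ _) (e_le h hτ _ _ _) _

/-! ### The instance of `WFamL` -/

theorem pc_nonneg (hb : 0 < be) (hT : ∀ k x m, (T k x m).PosSemidef) (J : ℕ)
    (P : ℕ → ℤ → ℤ → Prop) (c : ℕ → ℤ → ℤ → κ → ℝ) (k a : ℕ) (n m : ℤ) :
    0 ≤ pc J be T P c k a n m := by
  unfold pc
  have h : ∀ m, 0 ≤ ((J : ℝ) + 1) * (CP (rs (P k) k (c (k + 1))) k a n m * DB k m fun x =>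
      be • (1 : Matrix κ κ ℝ) + T a x n).trace := fun m =>
    mul_nonneg (by positivity) (trace_mul_nonneg (CP_psd _ _ _ _ _)
      (DB_psd fun x => Wx_psd hb hT a x n))
  have h0 := h (2 * m)
  have h1 := h (2 * m + 1)
  linarith

/-- **The families of the second slot in real letters.** -/
theorem wfamR (hb : 0 < be) (hτ0 : 0 ≤ τ) (hT : H419.Wt T e d)
    (hTτ : ∀ k x m, (τ • (1 : Matrix κ κ ℝ) - T k x m).PosSemidef) {k₀ N : ℕ} (hkN : k₀ ≤ N)
    {R S : ℤ} {μ : ℝ} (hμ : 0 < μ) {J : ℕ} {c : ℕ → ℤ → ℤ → κ → ℝ} {P : ℕ → ℤ → ℤ → Prop}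
    (hP : ∀ k, k₀ ≤ k → k < N → ∀ w m, ¬ P k w m → ∀ x ∈ iv k m, c (k + 1) x w = c k x w)
    {q : ℝ} (hq : μ / 4 ^ J * (2 * q) ≤ 1)
    (cap : ∀ k a, k₀ ≤ k → k ≤ a → a < N → ∀ n m, (q • (1 : Matrix (Ix k × κ) (Ix k × κ) ℝ) -
      H457.SD be T k (a + 1) n m * CP (c k) k (a + 1) n m *
        H457.SD be T k (a + 1) n m).PosSemidef)
    {H V D B : ℕ → ℝ} (nH : ∀ r, 0 ≤ H r) (nV : ∀ r, 0 ≤ V r) (nD : ∀ r, 0 ≤ D r)
    (nB : ∀ r, 0 ≤ B r)
    (hH : ∀ r, k₀ + r ≤ N → en N R S (k₀ + r) (Wx be T (k₀ + r)) (c k₀) ≤ H r)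
    (hV : ∀ r, ∑ k ∈ Ico k₀ (N - r), vr N R S d (k + r) (c k) ≤ be * V r)
    (hD : ∀ r, ∑ k ∈ Ico k₀ (N - r), dr N R S e (k + r) (c k) ≤ D r)
    (hB : ∀ r, ∑ k ∈ Ico k₀ (N - r), br N R S be T P c k (k + 1 + r) ≤ B r) :
    H912.WFamL k₀ N R S (ι := fun k => Ix k × κ) μ J τ be (fun k a n m => H457.SD be T k a n m)
      (fun k a n m => TD T k a n m) (fun k a n m => CP (c k) k a n m)
      (fun k a n m => TD e k a n m) (fun k a n m => TD d k a n m) (fun k => sk (k + 1) κ)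
      (fun k a n m => pc J be T P c k a n m) H (fun r => 2 * V r) (fun r => 2 * D r)
      (fun r => 2 * (be * V r) + 2 * (τ * D r)) (fun r => ((J : ℝ) + 1) * B r) where
  hkN := hkN
  hμ := hμ
  hτ := hτ0
  hβ := hb
  pS k a n m := SD_psd hb hT.ps k a n m
  uS k a n m := SD_unit hb hT.ps k a n m
  bS k a n m := by
    rw [SD_sq hb hT.ps, WD_eq, add_sub_cancel_left]
    exact TD_psd hT.ps k a n m
  sΘ k a n m := psd_isSymm (TD_psd hT.ps _ _ _ _)
  tΘ k a n m := by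
    rw [SD_sq hb hT.ps]
    exact WD_sq hb.le hτ0 hT.ps hTτ _ _ _ _
  pG k a n m := CP_psd _ _ _ _ _
  sM k a n m := TD_tr (fun k x m => hT.d_symm k x m) _ _ _ _
  pE k a n m := TD_psd hT.pe _ _ _ _
  par k a n m _ h2 h3 := CP_out N k (c k) a h2 h3 n m
  S0 k a n m _ _ _ := by
    rw [SD_sq hb hT.ps, SD_sq hb hT.ps]
    exact WD_even hT be k a n m
  S1 k a n m _ _ _ := by
    rw [SD_sq hb hT.ps, SD_sq hb hT.ps]
    exact WD_odd hT be k a n m
  Θ0 k a n m _ _ _ := TD_even hT k a n m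
  Θ1 k a n m _ _ _ := TD_odd hT k a n m
  hr k := sk_tr _
  hr2 k := sk_sq _
  rS k a n m := sk_DB _ _ _
  rΘ k a n m := sk_DB _ _ _
  cap0 k a n m h1 h2 h3 :=
    (cap_out hb hT.ps h2 h3 (by positivity) hq (cap k a h1 h2 h3 n m)).1
  cap1 k a n m h1 h2 h3 :=
    (cap_out hb hT.ps h2 h3 (by positivity) hq (cap k a h1 h2 h3 n m)).2
  mid k a n m h1 h2 h3 := bc_mid hb hT.ps (hP k h1 (by omega)) hμ J a n m
  np k a n m := pc_nonneg hb hT.ps J P c k a n m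
  nH := nH
  nZM r := mul_nonneg (by norm_num) (nV r)
  nZE r := mul_nonneg (by norm_num) (nD r)
  nZQ r := by
    have h1 := mul_nonneg hb.le (nV r)
    have h2 := mul_nonneg hτ0 (nD r)
    linarith
  nQm r := mul_nonneg (by positivity) (nB r)
  hH r hr := by
    rw [rH hb hT.ps (by omega) hr]
    exact hH r hr
  hZM r := by
    have h : ∀ k ∈ Ico k₀ (N - r), H336.bsum N R S k (k + r + 1) (fun n m =>
        eM (H457.SD be T k (k + r + 1) n m) (TD d k (k + r) n m)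
          (CP (c k) k (k + r) (2 * n) m) (CP (c k) k (k + r) (2 * n + 1) m)) ≤
        2 * (be⁻¹ * vr N R S d (k + r) (c k)) := by
      intro k hk
      have h0 := mem_Ico.1 hk
      rw [rZM hb hT.ps (Nat.le_add_right k r) (by omega)]
      exact mul_le_mul_of_nonneg_left (zm_le hb hT N R S (k + r) (c k)) (by norm_num)
    refine (sum_le_sum h).trans ?_
    rw [← Finset.mul_sum, ← Finset.mul_sum]
    have h2 := mul_le_mul_of_nonneg_left (hV r) (inv_pos.2 hb).le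
    rw [inv_mul_cancel_left₀ hb.ne'] at h2
    linarith
  hZE r := by
    have h : ∀ k ∈ Ico k₀ (N - r), H336.bsum N R S k (k + r + 1) (fun n m =>
        eE (TD e k (k + r) n m)
          (CP (c k) k (k + r) (2 * n) m) (CP (c k) k (k + r) (2 * n + 1) m)) =
        2 * dr N R S e (k + r) (c k) := by
      intro k hk
      have h0 := mem_Ico.1 hk
      rw [rZE (Nat.le_add_right k r) (by omega)]
      rfl
    rw [sum_congr rfl h, ← Finset.mul_sum]
    exact mul_le_mul_of_nonneg_left (hD r) (by norm_num)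
  hZQ r := by
    have h : ∀ k ∈ Ico k₀ (N - r), H336.bsum N R S k (k + r + 1) (fun n m =>
        eQ (TD e k (k + r) n m) (TD d k (k + r) n m)
          (CP (c k) k (k + r) (2 * n) m) (CP (c k) k (k + r) (2 * n + 1) m)) ≤
        2 * vr N R S d (k + r) (c k) + 2 * (τ * dr N R S e (k + r) (c k)) := by
      intro k hk
      have h0 := mem_Ico.1 hk
      rw [rZQ (Nat.le_add_right k r) (by omega), zq_eq hT]
      have := zee_le hT hTτ N R S (k + r) (c k)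
      linarith
    refine (sum_le_sum h).trans ?_
    rw [sum_add_distrib, ← Finset.mul_sum, ← Finset.mul_sum, ← Finset.mul_sum]
    have h1 := hV r
    have h2 := mul_le_mul_of_nonneg_left (hD r) hτ0
    linarith
  hQm r := by
    have h : ∀ k ∈ Ico k₀ (N - r), H336.bsum N R S (k + 1) (k + 1 + r) (fun n m =>
        pc J be T P c k (k + 1 + r) n m) =
        ((J : ℝ) + 1) * br N R S be T P c k (k + 1 + r) := by
      intro k hk
      have h0 := mem_Ico.1 hk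
      exact rQm (by omega) (by omega) R S J P c
    rw [sum_congr rfl h, ← Finset.mul_sum]
    exact mul_le_mul_of_nonneg_left (hB r) (by positivity)

/-! ### The shifted path -/

/-- the shifted row pieces -/
def P1 (N : ℕ) (P : ℕ → ℤ → ℤ → Prop) (k : ℕ) (w m : ℤ) : Prop := k + 1 < N ∧ P (k + 1) w (ix 1 m)

theorem rs_P1 (N : ℕ) (P : ℕ → ℤ → ℤ → Prop) {k : ℕ} (hk : k + 1 < N) (f : ℤ → ℤ → κ → ℝ) :
    rs (P1 N P k) k f = rs (P (k + 1)) (k + 1) f := by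
  funext x w
  have e : P1 N P k w (ix k x) ↔ P (k + 1) w (ix (k + 1) x) := by
    unfold P1
    rw [ix_ix]
    exact ⟨fun h => h.2, fun h => ⟨hk, h⟩⟩
  unfold rs
  by_cases h : P (k + 1) w (ix (k + 1) x)
  · rw [if_pos h, if_pos (e.2 h)]
  · rw [if_neg h, if_neg (fun h' => h (e.1 h'))]

theorem rs_P1' (N : ℕ) (P : ℕ → ℤ → ℤ → Prop) {k : ℕ} (hk : ¬ k + 1 < N) (f : ℤ → ℤ → κ → ℝ) :
    rs (P1 N P k) k f = fun _ _ => 0 := by
  funext x w
  unfold rs
  exact if_neg fun h => hk h.1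

theorem br_P1 (N : ℕ) (R S : ℤ) (be : ℝ) (T : ℕ → ℤ → ℤ → Matrix κ κ ℝ) (P : ℕ → ℤ → ℤ → Prop)
    (c : ℕ → ℤ → ℤ → κ → ℝ) {k : ℕ} (a : ℕ) : br N R S be T (P1 N P) (fun k => c (k + 1)) k a =
      if k + 1 < N then br N R S be T P c (k + 1) a else 0 := by
  unfold br
  split_ifs with h
  · rw [rs_P1 N P h]
  · rw [rs_P1' N P h]
    unfold en
    simp

/-- **The families at the shifted path** `c (k + 1)`. -/
theorem wfamR1 (hb : 0 < be) (hτ0 : 0 ≤ τ) (hT : H419.Wt T e d)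
    (hTτ : ∀ k x m, (τ • (1 : Matrix κ κ ℝ) - T k x m).PosSemidef) {k₀ N : ℕ} (hkN : k₀ ≤ N)
    {R S : ℤ} {μ : ℝ} (hμ : 0 < μ) {J : ℕ} {c : ℕ → ℤ → ℤ → κ → ℝ} {P : ℕ → ℤ → ℤ → Prop}
    (hP : ∀ k, k₀ ≤ k → k < N → ∀ w m, ¬ P k w m → ∀ x ∈ iv k m, c (k + 1) x w = c k x w)
    (hN : ∀ x w, c (N + 1) x w = c N x w)
    {q : ℝ} (hq : μ / 4 ^ J * (2 * q) ≤ 1)
    (cap : ∀ k a, k₀ ≤ k → k ≤ a → a < N → ∀ n m, (q • (1 : Matrix (Ix k × κ) (Ix k × κ) ℝ) -
      H457.SD be T k (a + 1) n m * CP (c (k + 1)) k (a + 1) n m *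
        H457.SD be T k (a + 1) n m).PosSemidef)
    {H V D B : ℕ → ℝ} (nH : ∀ r, 0 ≤ H r) (nV : ∀ r, 0 ≤ V r) (nD : ∀ r, 0 ≤ D r)
    (nB : ∀ r, 0 ≤ B r)
    (hH : ∀ r, k₀ + r ≤ N → en N R S (k₀ + r) (Wx be T (k₀ + r)) (c (k₀ + 1)) ≤ H r)
    (hV : ∀ r, ∑ k ∈ Ico k₀ (N - r), vr N R S d (k + r) (c (k + 1)) ≤ be * V r)
    (hD : ∀ r, ∑ k ∈ Ico k₀ (N - r), dr N R S e (k + r) (c (k + 1)) ≤ D r)
    (hB : ∀ r, ∑ k ∈ (Ico k₀ (N - r)).filter (fun k => k + 1 < N),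
      br N R S be T P c (k + 1) (k + 1 + r) ≤ B r) :
    H912.WFamL k₀ N R S (ι := fun k => Ix k × κ) μ J τ be (fun k a n m => H457.SD be T k a n m)
      (fun k a n m => TD T k a n m) (fun k a n m => CP (c (k + 1)) k a n m)
      (fun k a n m => TD e k a n m) (fun k a n m => TD d k a n m) (fun k => sk (k + 1) κ)
      (fun k a n m => pc J be T (P1 N P) (fun k => c (k + 1)) k a n m) H (fun r => 2 * V r)
      (fun r => 2 * D r) (fun r => 2 * (be * V r) + 2 * (τ * D r))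
      (fun r => ((J : ℝ) + 1) * B r) := by
  refine wfamR (c := fun k => c (k + 1)) (P := P1 N P) hb hτ0 hT hTτ hkN hμ ?_ hq cap nH nV nD nB
    hH hV hD ?_
  · intro k h1 h2 w m hn x hx
    by_cases h : k + 1 < N
    · refine hP (k + 1) (by omega) h w (ix 1 m) (fun hc => hn ⟨h, hc⟩) x ?_
      rw [mem_iv, ← mem_iv.1 hx, ix_ix]
  
    · have e : k + 1 = N := by omega
      subst e
      exact hN x w
  · intro r
    simp only [br_P1]
    rw [← sum_filter]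
    exact hB r

end num

/-! ### In the letters of `wpair` -/

section fin

open Vale.Agent.P141.H419.PairB Vale.Agent.P141.H585.PairO Vale.Agent.P141.H389
open Vale.Agent.P141.H912 (WFamL OwL wS)

variable {be τ : ℝ} {T e d : ℕ → ℤ → ℤ → Matrix κ κ ℝ}

/-- the plane energy of the second slot in the letters of `wpair` -/
theorem TV_PG (hb : 0 < be) (hT : ∀ k x m, (T k x m).PosSemidef) (k₀ N : ℕ) (R S : ℤ) (s : ℝ)
    (c : ℕ → ℤ → ℤ → κ → ℝ) :
    TV k₀ N R S (ι := fun k => Ix k × κ) (H419.TVpg.Vf s (fun k a n m => H457.SD be T k a n m)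
      (fun k a n m => TD T k a n m) (fun k a n m => CP (c k) k a n m)) =
      TV k₀ N R S (ι := fun k => Ix k × κ) (fun k a n m => PG be s T (c k) k a n m) := by
  have e : (H419.TVpg.Vf s (fun k a n m => H457.SD be T k a n m)
      (fun k a n m => TD T k a n m) (fun k a n m => CP (c k) k a n m) :
      ∀ k, ℕ → ℤ → ℤ → Matrix (Ix k × κ) (Ix k × κ) ℝ) =
      fun k a n m => PG be s T (c k) k a n m := by
    funext k a n m
    unfold H419.TVpg.Vf PG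
    rw [SD_sq hb hT]
  rw [e]

end fin

end

end Vale.Agent.P141.H125.OBC
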