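import Mathlib

/-!
# P141, line (S): births from scratch, the trace energy `Φ(G) = tr (G - w)₊`

`sp h f`: a function of a symmetric matrix.  `EP h w`: the spectral projection above `w`.
`Phi h w = Σ (λ - w)₊ = sup tr Q (A - w)` over `0 ≤ Q ≤ 1`.

* `phi_growth`: the mass of the directions born below a window top is paid by the growth of `Φ`;
* `pass_u`, `pass_v`: the heavy directions at the window top have small mass.
-/

namespace Vale.Agent.P141.H125

open Matrix Finset

noncomputable section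

variable {ι : Type*} [Fintype ι] [DecidableEq ι]

/-! ### functions of a symmetric matrix -/

/-- a function of a symmetric matrix -/
def sp {A : Matrix ι ι ℝ} (h : A.IsHermitian) (f : ℝ → ℝ) : Matrix ι ι ℝ :=
  (h.eigenvectorUnitary : Matrix ι ι ℝ) * diagonal (fun i => f (h.eigenvalues i)) *
    star (h.eigenvectorUnitary : Matrix ι ι ℝ)

variable {A : Matrix ι ι ℝ} (h : A.IsHermitian)

theorem U_star : (h.eigenvectorUnitary : Matrix ι ι ℝ) *
    star (h.eigenvectorUnitary : Matrix ι ι ℝ) = 1 :=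
  Unitary.mul_star_self_of_mem h.eigenvectorUnitary.2

theorem star_U : star (h.eigenvectorUnitary : Matrix ι ι ℝ) *
    (h.eigenvectorUnitary : Matrix ι ι ℝ) = 1 :=
  Unitary.star_mul_self_of_mem h.eigenvectorUnitary.2

theorem sp_id : sp h (fun x => x) = A := by
  conv_rhs => rw [h.spectral_theorem]
  rfl

theorem sp_mul (f g : ℝ → ℝ) : sp h f * sp h g = sp h fun x => f x * g x := by
  unfold sp
  have e : (h.eigenvectorUnitary : Matrix ι ι ℝ) * diagonal (fun i => f (h.eigenvalues i)) *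
      star (h.eigenvectorUnitary : Matrix ι ι ℝ) * ((h.eigenvectorUnitary : Matrix ι ι ℝ) *
      diagonal (fun i => g (h.eigenvalues i)) * star (h.eigenvectorUnitary : Matrix ι ι ℝ)) =
      (h.eigenvectorUnitary : Matrix ι ι ℝ) * diagonal (fun i => f (h.eigenvalues i)) *
      (star (h.eigenvectorUnitary : Matrix ι ι ℝ) * (h.eigenvectorUnitary : Matrix ι ι ℝ)) *
      diagonal (fun i => g (h.eigenvalues i)) * star (h.eigenvectorUnitary : Matrix ι ι ℝ) := by
    simp only [Matrix.mul_assoc]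
  rw [e, star_U, Matrix.mul_one, Matrix.mul_assoc _ (diagonal _) (diagonal _),
    diagonal_mul_diagonal]

theorem sp_add (f g : ℝ → ℝ) : sp h f + sp h g = sp h fun x => f x + g x := by
  unfold sp
  rw [← Matrix.add_mul, ← Matrix.mul_add, diagonal_add]

theorem sp_sub (f g : ℝ → ℝ) : sp h f - sp h g = sp h fun x => f x - g x := by
  unfold sp
  rw [← Matrix.sub_mul, ← Matrix.mul_sub, diagonal_sub]

theorem sp_const (c : ℝ) : sp h (fun _ => c) = c • (1 : Matrix ι ι ℝ) := by
  unfold sp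
  have e : (diagonal fun _ : ι => c) = c • (1 : Matrix ι ι ℝ) := by
    rw [smul_one_eq_diagonal]
  rw [e, Matrix.mul_smul, Matrix.mul_one, Matrix.smul_mul, U_star]

theorem sp_smul (c : ℝ) (f : ℝ → ℝ) : c • sp h f = sp h fun x => c * f x := by
  have e := sp_mul h (fun _ => c) f
  rw [sp_const, Matrix.smul_mul, Matrix.one_mul] at e
  exact e

theorem sp_congr {f g : ℝ → ℝ} (hfg : ∀ i, f (h.eigenvalues i) = g (h.eigenvalues i)) :
    sp h f = sp h g := by
  unfold sp
  congr 3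
  funext i
  exact hfg i

theorem sp_psd {f : ℝ → ℝ} (hf : ∀ i, 0 ≤ f (h.eigenvalues i)) : (sp h f).PosSemidef := by
  unfold sp
  exact (PosSemidef.diagonal fun i => hf i).mul_mul_conjTranspose_same _

theorem sp_herm (f : ℝ → ℝ) : (sp h f).IsHermitian := by
  unfold sp
  exact isHermitian_mul_mul_conjTranspose _ (by
    rw [IsHermitian, diagonal_conjTranspose]
    rfl)

theorem sp_trace (f : ℝ → ℝ) : (sp h f).trace = ∑ i, f (h.eigenvalues i) := by
  unfold sp
  rw [Matrix.trace_mul_comm, ← Matrix.mul_assoc, star_U, Matrix.one_mul, trace_diagonal]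

theorem sp_mul_A (f : ℝ → ℝ) : sp h f * A = sp h fun x => f x * x := by
  have e1 := sp_mul h f fun x => x
  rwa [sp_id] at e1

theorem A_mul_sp (f : ℝ → ℝ) : A * sp h f = sp h fun x => x * f x := by
  have e1 := sp_mul h (fun x => x) f
  rwa [sp_id] at e1

theorem A_sub_sp (f : ℝ → ℝ) : A - sp h f = sp h fun x => x - f x := by
  have e1 := sp_sub h (fun x => x) f
  rwa [sp_id] at e1

theorem sp_comm (f : ℝ → ℝ) : sp h f * A = A * sp h f := by
  rw [sp_mul_A, A_mul_sp]
  exact sp_congr h fun i => mul_comm _ _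

/-- the trace of a product of two positive semidefinite matrices -/
theorem tr_nonneg {A B : Matrix ι ι ℝ} (hA : A.PosSemidef) (hB : B.PosSemidef) :
    0 ≤ (A * B).trace := by
  have hS := sp_herm hB.1 fun x => √x
  have e : sp hB.1 (fun x => √x) * sp hB.1 (fun x => √x) = B := by
    rw [sp_mul]
    conv_rhs => rw [← sp_id hB.1]
    exact sp_congr _ fun i => Real.mul_self_sqrt (hB.eigenvalues_nonneg i)
  have h2 : (A * B).trace =
      ((sp hB.1 fun x => √x)ᴴ * A * (sp hB.1 fun x => √x)).trace := by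
    rw [hS.eq]
    conv_lhs => rw [← e]
    rw [← Matrix.mul_assoc, Matrix.trace_mul_comm, ← Matrix.mul_assoc]
  rw [h2]
  exact (hA.conjTranspose_mul_mul_same _).trace_nonneg

theorem tr_mono_right {A B C : Matrix ι ι ℝ} (hA : A.PosSemidef) (hBC : (C - B).PosSemidef) :
    (A * B).trace ≤ (A * C).trace := by
  have h1 := tr_nonneg hA hBC
  rw [Matrix.mul_sub, trace_sub] at h1
  linarith

theorem tr_mono_left {A B C : Matrix ι ι ℝ} (hA : A.PosSemidef) (hBC : (C - B).PosSemidef) :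
    (B * A).trace ≤ (C * A).trace := by
  rw [Matrix.trace_mul_comm B, Matrix.trace_mul_comm C]
  exact tr_mono_right hA hBC

/-! ### the projection and the energy -/

/-- spectral projection above `w` -/
def EP (w : ℝ) : Matrix ι ι ℝ := sp h fun x => if w < x then 1 else 0

/-- `Φ(A) = tr (A - w)₊` -/
def Phi (w : ℝ) : ℝ := ∑ i, max (h.eigenvalues i - w) 0

theorem EP_herm (w : ℝ) : (EP h w).IsHermitian := sp_herm h _

theorem EP_psd (w : ℝ) : (EP h w).PosSemidef := sp_psd h fun i => by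
  split_ifs <;> norm_num

theorem one_sub (f : ℝ → ℝ) : 1 - sp h f = sp h fun x => 1 - f x := by
  have e := sp_sub h (fun _ => 1) f
  rw [sp_const, one_smul] at e
  exact e

theorem EP_co_psd (w : ℝ) : (1 - EP h w).PosSemidef := by
  unfold EP
  rw [one_sub]
  refine sp_psd h fun i => ?_
  split_ifs <;> norm_num

theorem EP_idem (w : ℝ) : EP h w * EP h w = EP h w := by
  unfold EP
  rw [sp_mul]
  refine sp_congr h fun i => ?_
  split_ifs <;> norm_num

theorem EP_comm (w : ℝ) : EP h w * A = A * EP h w := sp_comm h _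

theorem co_idem (w : ℝ) : (1 - EP h w) * (1 - EP h w) = 1 - EP h w := by
  rw [Matrix.mul_sub, Matrix.mul_one, Matrix.sub_mul, Matrix.one_mul, EP_idem]
  simp

theorem co_mul (w : ℝ) : (1 - EP h w) * EP h w = 0 := by
  rw [Matrix.sub_mul, Matrix.one_mul, EP_idem, sub_self]

theorem mul_co (w : ℝ) : EP h w * (1 - EP h w) = 0 := by
  rw [Matrix.mul_sub, Matrix.mul_one, EP_idem, sub_self]

theorem co_herm (w : ℝ) : (1 - EP h w)ᴴ = 1 - EP h w := by
  rw [conjTranspose_sub, conjTranspose_one, (EP_herm h w).eq]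

theorem Phi_nonneg (w : ℝ) : 0 ≤ Phi h w := sum_nonneg fun _ _ => le_max_right _ _

theorem Phi_eq (w : ℝ) : Phi h w = (EP h w * (A - w • 1)).trace := by
  have e : EP h w * (A - w • 1) = sp h fun x => max (x - w) 0 := by
    have e1 : A - w • (1 : Matrix ι ι ℝ) = sp h fun x => x - w := by
      have e2 := sp_sub h (fun x => x) fun _ => w
      rw [sp_id, sp_const] at e2
      exact e2
    unfold EP
    rw [e1, sp_mul]
    refine sp_congr h fun i => ?_
    split_ifs with hi
    · rw [one_mul, max_eq_left (by linarith)]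
    · rw [zero_mul, max_eq_right (by linarith [not_lt.1 hi])]
  rw [e, sp_trace]
  rfl

/-- **sup formula** -/
theorem le_Phi {Q : Matrix ι ι ℝ} (hQ : Q.PosSemidef) (hQ1 : (1 - Q).PosSemidef) (w : ℝ) :
    (Q * (A - w • 1)).trace ≤ Phi h w := by
  have e1 : A - w • (1 : Matrix ι ι ℝ) = sp h fun x => x - w := by
    have e2 := sp_sub h (fun x => x) fun _ => w
    rw [sp_id, sp_const] at e2
    exact e2
  have h1 : (Q * (A - w • 1)).trace ≤ (Q * sp h fun x => max (x - w) 0).trace := by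
    refine tr_mono_right hQ ?_
    rw [e1, sp_sub]
    exact sp_psd h fun i => sub_nonneg.2 (le_max_left _ _)
  have h2 : (Q * sp h fun x => max (x - w) 0).trace ≤
      ((1 : Matrix ι ι ℝ) * sp h fun x => max (x - w) 0).trace :=
    tr_mono_left (sp_psd h fun i => le_max_right _ _) hQ1
  rw [Matrix.one_mul, sp_trace] at h2
  exact h1.trans h2

theorem Phi_le_trace {w : ℝ} (hA : A.PosSemidef) (hw : 0 ≤ w) : Phi hA.1 w ≤ A.trace := by
  have e : A.trace = ∑ i, hA.1.eigenvalues i := by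
    conv_lhs => rw [← sp_id hA.1]
    exact sp_trace hA.1 _
  rw [e]
  exact sum_le_sum fun i _ => max_le (by linarith) (hA.eigenvalues_nonneg i)

/-- the light part of `A` -/
theorem co_mul_co (w : ℝ) : (1 - EP h w) * A * (1 - EP h w) =
    sp h fun x => if w < x then 0 else x := by
  unfold EP
  rw [one_sub, sp_mul_A, sp_mul]
  refine sp_congr h fun i => ?_
  split_ifs <;> ring

/-- potentials of the light part -/
theorem light_le (w : ℝ) :
    (w • (1 - EP h w) - (1 - EP h w) * A * (1 - EP h w)).PosSemidef := by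
  rw [co_mul_co]
  unfold EP
  rw [one_sub, sp_smul, sp_sub]
  refine sp_psd h fun i => ?_
  split_ifs with hi
  · norm_num
  · rw [sub_zero, mul_one, sub_nonneg]
    exact not_lt.1 hi

/-- heavy directions: `w E ≤ A` -/
theorem heavy_le {A : Matrix ι ι ℝ} (hA : A.PosSemidef) (w : ℝ) :
    (A - w • EP hA.1 w).PosSemidef := by
  unfold EP
  rw [sp_smul, A_sub_sp]
  refine sp_psd hA.1 fun i => ?_
  have := hA.eigenvalues_nonneg i
  split_ifs with hi
  · linarith
  · linarith

/-- `(1 - E) A (1 - E) ≤ A` -/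
theorem co_le {A : Matrix ι ι ℝ} (hA : A.PosSemidef) {w : ℝ} :
    (A - (1 - EP hA.1 w) * A * (1 - EP hA.1 w)).PosSemidef := by
  rw [co_mul_co, A_sub_sp]
  refine sp_psd hA.1 fun i => ?_
  have := hA.eigenvalues_nonneg i
  split_ifs with hi
  · linarith
  · linarith

/-! ### the window top: heavy directions have small mass -/

/-- **pass_u**: `V` the Gram matrix of the other slot. -/
theorem pass_u {A V : Matrix ι ι ℝ} (hA : A.PosSemidef) (hV : V.PosSemidef) (w : ℝ) :
    w * (EP hA.1 w * V).trace ≤ (A * V).trace := by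
  have h1 := tr_mono_left hV (heavy_le hA w)
  rwa [Matrix.smul_mul, trace_smul, smul_eq_mul] at h1

/-- pass_u at a point -/
theorem pass_u_pt {A : Matrix ι ι ℝ} (hA : A.PosSemidef) (w : ℝ) (x : ι → ℝ) :
    w * (x ⬝ᵥ EP hA.1 w *ᵥ x) ≤ x ⬝ᵥ A *ᵥ x := by
  have h1 := (heavy_le hA w).dotProduct_mulVec_nonneg x
  rw [sub_mulVec, dotProduct_sub, smul_mulVec, dotProduct_smul, smul_eq_mul] at h1
  simpa using h1

/-- **pass_v**: `V` the Gram matrix of the second slot, `A` the one of the first; the second heavy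
projection applied to the light part of the first slot. -/
theorem pass_v {A V : Matrix ι ι ℝ} (hA : A.PosSemidef) (hV : V.PosSemidef) (w w' : ℝ) :
    w' * (EP hV.1 w' * ((1 - EP hA.1 w) * A * (1 - EP hA.1 w))).trace ≤ (V * A).trace := by
  have h0 : ((1 - EP hA.1 w) * A * (1 - EP hA.1 w)).PosSemidef := by
    have e := hA.conjTranspose_mul_mul_same (1 - EP hA.1 w)
    rwa [co_herm] at e
  exact (pass_u hV h0 w').trans (tr_mono_right hV (co_le hA))

/-! ### growth of the energy -/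

/-- the block of `G` on the light directions of the top -/
def Hb (E G : Matrix ι ι ℝ) : Matrix ι ι ℝ := (1 - E) * G * (1 - E)

theorem Hb_psd {E G : Matrix ι ι ℝ} (hE : E.IsHermitian) (hG : G.PosSemidef) :
    (Hb E G).PosSemidef := by
  have e := hG.conjTranspose_mul_mul_same (1 - E)
  rwa [conjTranspose_sub, conjTranspose_one, hE.eq] at e

section block

variable {E G : Matrix ι ι ℝ} (hE : E.IsHermitian) (hE2 : E * E = E) (hG : G.PosSemidef)
include hE2

theorem E_mul_Hb : E * Hb E G = 0 := by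
  have e : E * (1 - E) = 0 := by rw [Matrix.mul_sub, Matrix.mul_one, hE2, sub_self]
  unfold Hb
  rw [← Matrix.mul_assoc, ← Matrix.mul_assoc, e, Matrix.zero_mul, Matrix.zero_mul]

theorem Hb_mul_E : Hb E G * E = 0 := by
  have e : (1 - E) * E = 0 := by rw [Matrix.sub_mul, Matrix.one_mul, hE2, sub_self]
  unfold Hb
  rw [Matrix.mul_assoc, e, Matrix.mul_zero]

/-- functions of the block vanishing below `w` live on the light directions -/
theorem E_mul_sp {w : ℝ} (hw : 0 ≤ w) {f : ℝ → ℝ} (hf : ∀ x, x ≤ w → f x = 0) :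
    E * sp (Hb_psd hE hG).1 f = 0 := by
  have e : sp (Hb_psd hE hG).1 f = Hb E G * sp (Hb_psd hE hG).1 fun x => f x / x := by
    rw [A_mul_sp]
    refine sp_congr _ fun i => ?_
    rcases le_or_gt ((Hb_psd hE hG).1.eigenvalues i) w with hi | hi
    · rw [hf _ hi]; simp
    · have : (Hb_psd hE hG).1.eigenvalues i ≠ 0 := (hw.trans_lt hi).ne'
      field_simp
  rw [e, ← Matrix.mul_assoc, E_mul_Hb hE2, Matrix.zero_mul]

theorem sp_mul_E {w : ℝ} (hw : 0 ≤ w) {f : ℝ → ℝ} (hf : ∀ x, x ≤ w → f x = 0) :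
    sp (Hb_psd hE hG).1 f * E = 0 := by
  have e : sp (Hb_psd hE hG).1 f = (sp (Hb_psd hE hG).1 fun x => f x / x) * Hb E G := by
    rw [sp_mul_A]
    refine sp_congr _ fun i => ?_
    rcases le_or_gt ((Hb_psd hE hG).1.eigenvalues i) w with hi | hi
    · rw [hf _ hi]; simp
    · have : (Hb_psd hE hG).1.eigenvalues i ≠ 0 := (hw.trans_lt hi).ne'
      field_simp
  rw [e, Matrix.mul_assoc, Hb_mul_E hE2, Matrix.mul_zero]

/-- one cell: pinching of the energy -/
theorem block_le (hEp : E.PosSemidef) {w : ℝ} (hw : 0 ≤ w) :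
    (E * (G - w • 1)).trace + Phi (Hb_psd hE hG).1 w ≤ Phi hG.1 w := by
  set R := EP (Hb_psd hE hG).1 w with hR
  have hf : ∀ x : ℝ, x ≤ w → (if w < x then (1 : ℝ) else 0) = 0 := fun x hx =>
    if_neg (not_lt.2 hx)
  have r1 : E * R = 0 := E_mul_sp hE hE2 hG hw hf
  have r2 : R * E = 0 := sp_mul_E hE hE2 hG hw hf
  have r3 : (1 - E) * R = R := by rw [Matrix.sub_mul, Matrix.one_mul, r1, sub_zero]
  have r4 : R * (1 - E) = R := by rw [Matrix.mul_sub, Matrix.mul_one, r2, sub_zero]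
  have hQ : (E + R).PosSemidef := hEp.add (EP_psd _ _)
  have hQ1 : (1 - (E + R)).PosSemidef := by
    have e := (EP_co_psd (Hb_psd hE hG).1 w).conjTranspose_mul_mul_same (1 - E)
    rw [conjTranspose_sub, conjTranspose_one, hE.eq, ← hR] at e
    have e2 : (1 - E) * (1 - R) * (1 - E) = 1 - (E + R) := by
      have e3 : (1 - E) * (1 - E) = 1 - E := by
        rw [Matrix.mul_sub, Matrix.mul_one, Matrix.sub_mul, Matrix.one_mul, hE2]
        simp
      rw [Matrix.mul_sub (1 - E) 1 R, Matrix.mul_one, r3, Matrix.sub_mul, e3, r4]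
      abel
    rwa [e2] at e
  have h1 := le_Phi hG.1 hQ hQ1 w
  rw [Matrix.add_mul, trace_add] at h1
  have h2 : (R * (G - w • 1)).trace = Phi (Hb_psd hE hG).1 w := by
    rw [Phi_eq, ← hR, Matrix.mul_sub, Matrix.mul_sub, trace_sub, trace_sub]
    congr 1
    unfold Hb
    have e5 : (R * ((1 - E) * G * (1 - E))).trace = ((1 - E) * (R * (1 - E)) * G).trace := by
      rw [← Matrix.mul_assoc, Matrix.trace_mul_comm]
      simp only [Matrix.mul_assoc]
    rw [e5, r4, r3]
  rw [h2] at h1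
  exact h1

end block

/-- mass above `2 w` against the energy at `w` -/
theorem mass_le {A : Matrix ι ι ℝ} (hA : A.PosSemidef) {w : ℝ} :
    (EP hA.1 (2 * w) * A).trace ≤ 2 * Phi hA.1 w := by
  unfold EP Phi
  rw [sp_mul_A, sp_trace, mul_sum]
  refine sum_le_sum fun i _ => ?_
  have h0 := hA.eigenvalues_nonneg i
  split_ifs with hi
  · rw [one_mul]
    have := le_max_left (hA.1.eigenvalues i - w) 0
    linarith
  · rw [zero_mul]
    have := le_max_right (hA.1.eigenvalues i - w) 0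
    linarith

/-- the light part on a cell after the birth projection: potentials at most `2 w` -/
theorem fut_le {A : Matrix ι ι ℝ} (hA : A.PosSemidef) (w : ℝ) :
    ((2 * w) • (1 - EP hA.1 (2 * w)) -
      (1 - EP hA.1 (2 * w)) * A * (1 - EP hA.1 (2 * w))).PosSemidef := light_le hA.1 (2 * w)

section family

variable {κ : Type*} {Q : Finset κ} {μ : κ → ℝ} {G : κ → Matrix ι ι ℝ} {T : Matrix ι ι ℝ}

theorem tr_avg (E : Matrix ι ι ℝ) (hμ1 : ∑ q ∈ Q, μ q = 1) (hav : T = ∑ q ∈ Q, μ q • G q)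
    (w : ℝ) : ∑ q ∈ Q, μ q * (E * (G q - w • 1)).trace = (E * (T - w • 1)).trace := by
  have e1 : T - w • (1 : Matrix ι ι ℝ) = ∑ q ∈ Q, μ q • (G q - w • 1) := by
    rw [hav]
    simp only [smul_sub, sum_sub_distrib]
    rw [← sum_smul, hμ1, one_smul]
  rw [e1, Matrix.mul_sum, trace_sum]
  refine sum_congr rfl fun q _ => ?_
  rw [Matrix.mul_smul, trace_smul, smul_eq_mul]

/-- **Growth of the energy below a window top**, any family of cells with weights `μ`. -/
theorem phi_growth (hμ : ∀ q ∈ Q, 0 ≤ μ q) (hμ1 : ∑ q ∈ Q, μ q = 1)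
    (hG : ∀ q, (G q).PosSemidef) (hT : T.PosSemidef) (hav : T = ∑ q ∈ Q, μ q • G q) {w : ℝ}
    (hw : 0 ≤ w) :
    Phi hT.1 w + ∑ q ∈ Q, μ q * Phi (Hb_psd (EP_herm hT.1 w) (hG q)).1 w ≤
      ∑ q ∈ Q, μ q * Phi (hG q).1 w := by
  have h1 : ∀ q ∈ Q, μ q * ((EP hT.1 w * (G q - w • 1)).trace +
      Phi (Hb_psd (EP_herm hT.1 w) (hG q)).1 w) ≤ μ q * Phi (hG q).1 w := fun q hq =>
    mul_le_mul_of_nonneg_left
      (block_le (EP_herm hT.1 w) (EP_idem hT.1 w) (hG q) (EP_psd hT.1 w) hw) (hμ q hq)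
  have h2 := sum_le_sum h1
  simp only [mul_add, sum_add_distrib] at h2
  rw [tr_avg _ hμ1 hav, ← Phi_eq] at h2
  exact h2

/-- **Mass of the births** (`act`) **against the growth of the energy.** -/
theorem mass_growth (hμ : ∀ q ∈ Q, 0 ≤ μ q) (hμ1 : ∑ q ∈ Q, μ q = 1)
    (hG : ∀ q, (G q).PosSemidef) (hT : T.PosSemidef) (hav : T = ∑ q ∈ Q, μ q • G q) {w : ℝ}
    (hw : 0 ≤ w) :
    ∑ q ∈ Q, μ q * (EP (Hb_psd (EP_herm hT.1 w) (hG q)).1 (2 * w) *
      Hb (EP hT.1 w) (G q)).trace ≤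
      2 * (∑ q ∈ Q, μ q * Phi (hG q).1 w - Phi hT.1 w) := by
  have h1 := phi_growth hμ hμ1 hG hT hav hw
  have h2 : ∑ q ∈ Q, μ q * (EP (Hb_psd (EP_herm hT.1 w) (hG q)).1 (2 * w) *
      Hb (EP hT.1 w) (G q)).trace ≤
      ∑ q ∈ Q, μ q * (2 * Phi (Hb_psd (EP_herm hT.1 w) (hG q)).1 w) :=
    sum_le_sum fun q hq => mul_le_mul_of_nonneg_left (mass_le (Hb_psd (EP_herm hT.1 w) (hG q))) (hμ q hq)
  have h3 : ∑ q ∈ Q, μ q * (2 * Phi (Hb_psd (EP_herm hT.1 w) (hG q)).1 w) =
      2 * ∑ q ∈ Q, μ q * Phi (Hb_psd (EP_herm hT.1 w) (hG q)).1 w := by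
    rw [mul_sum]
    exact sum_congr rfl fun q _ => by ring
  linarith

/-- the energy increases -/
theorem Phi_mono (hμ : ∀ q ∈ Q, 0 ≤ μ q) (hμ1 : ∑ q ∈ Q, μ q = 1)
    (hG : ∀ q, (G q).PosSemidef) (hT : T.PosSemidef) (hav : T = ∑ q ∈ Q, μ q • G q) {w : ℝ}
    (hw : 0 ≤ w) : Phi hT.1 w ≤ ∑ q ∈ Q, μ q * Phi (hG q).1 w := by
  have h1 := phi_growth hμ hμ1 hG hT hav hw
  have h2 : 0 ≤ ∑ q ∈ Q, μ q * Phi (Hb_psd (EP_herm hT.1 w) (hG q)).1 w :=
    sum_nonneg fun q hq => mul_nonneg (hμ q hq) (Phi_nonneg _ _)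
  linarith

end family

/-! ### Gram matrices of vector valued functions -/

section gram

variable {X : Type*} {D : Finset X}

/-- the label Gram matrix of `u` over a cell with weights -/
def Gm (D : Finset X) (c : ℝ) (u : X → ι → ℝ) : Matrix ι ι ℝ :=
  c • ∑ x ∈ D, vecMulVec (u x) (u x)

omit [DecidableEq ι] in
theorem Gm_psd {c : ℝ} (hc : 0 ≤ c) (u : X → ι → ℝ) : (Gm D c u).PosSemidef := by
  refine PosSemidef.smul (posSemidef_sum _ fun x _ => ?_) hc
  have e := posSemidef_vecMulVec_self_star (u x)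
  simpa using e

omit [DecidableEq ι] in
theorem Gm_form (c : ℝ) (u : X → ι → ℝ) (a : ι → ℝ) :
    a ⬝ᵥ Gm D c u *ᵥ a = c * ∑ x ∈ D, (u x ⬝ᵥ a) ^ 2 := by
  unfold Gm
  rw [smul_mulVec, dotProduct_smul, smul_eq_mul, sum_mulVec, dotProduct_sum]
  congr 1
  refine sum_congr rfl fun x _ => ?_
  rw [vecMulVec_mulVec, dotProduct_smul, op_smul_eq_smul, smul_eq_mul, dotProduct_comm a]
  ring

omit [DecidableEq ι] in
theorem tr_mul_Gm (M : Matrix ι ι ℝ) (c : ℝ) (u : X → ι → ℝ) :
    (M * Gm D c u).trace = c * ∑ x ∈ D, u x ⬝ᵥ M *ᵥ u x := by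
  unfold Gm
  rw [Matrix.mul_smul, trace_smul, smul_eq_mul, Matrix.mul_sum, trace_sum]
  congr 1
  refine sum_congr rfl fun x _ => ?_
  rw [mul_vecMulVec, trace_vecMulVec, dotProduct_comm]

end gram

end

end Vale.Agent.P141.H125
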